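import Vale.Agent.P070.Spec

/-!
P070: one linked flag for every class of irreducible representations but that of `baseRep`.
-/

namespace Vale.Agent.P070

universe u

variable {A : Type} [Ring A] [StarRing A] [Algebra ℂ A]
  {H : Type u} [NormedAddCommGroup H] [InnerProductSpace ℂ H] [CompleteSpace H]

theorem uniEquiv_refl (π : A →⋆ₐ[ℂ] (H →L[ℂ] H)) : UniEquiv π π :=
  ⟨LinearIsometryEquiv.refl ℂ H, fun _ _ => rfl⟩

theorem uniEquiv_symm {π σ : A →⋆ₐ[ℂ] (H →L[ℂ] H)} (h : UniEquiv π σ) : UniEquiv σ π := by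
  obtain ⟨U, hU⟩ := h
  exact ⟨U.symm, fun x k => U.injective (by
    rw [U.apply_symm_apply, hU, U.apply_symm_apply])⟩

theorem uniEquiv_trans {π σ τ : A →⋆ₐ[ℂ] (H →L[ℂ] H)} (h : UniEquiv π σ) (h' : UniEquiv σ τ) :
    UniEquiv π τ := by
  obtain ⟨U, hU⟩ := h
  obtain ⟨V, hV⟩ := h'
  exact ⟨U.trans V, fun x k => by
    show V (U (π x k)) = τ x (V (U k))
    rw [hU, hV]⟩

/-- Unitary equivalence of the irreducible representations on `K0`. -/
def classSetoid : Setoid {σ : Car →⋆ₐ[ℂ] (K0 →L[ℂ] K0) // IsIrred σ} where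
  r σ τ := UniEquiv σ.1 τ.1
  iseqv := ⟨fun σ => uniEquiv_refl σ.1, uniEquiv_symm, uniEquiv_trans⟩

/-- ATLAS. -/
theorem atlasModule : AtlasModule := by
  intro hC hL
  let s := classSetoid
  let ι := {c : Quotient s // c ≠ ⟦⟨baseRep, hC.base⟩⟧}
  choose ξ p q v hflag hbase hlink using fun i : ι => hL i.1.out.1 i.1.out.2
  refine ⟨⟨ι, fun i => i.1.out.1, ξ, p, q, v, fun i => i.1.out.2, hflag, hbase, hlink,
    fun i h => i.2 ?_, fun i j h => Subtype.ext ?_, fun σ hσ => ?_⟩⟩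
  · rw [← Quotient.out_eq i.1]
    exact Quotient.sound h
  · rw [← Quotient.out_eq i.1, ← Quotient.out_eq j.1]
    exact Quotient.sound h
  · by_cases h : (⟦⟨σ, hσ⟩⟧ : Quotient s) = ⟦⟨baseRep, hC.base⟩⟧
    · exact Or.inl (Quotient.exact h)
    · exact Or.inr ⟨⟨_, h⟩, uniEquiv_symm (Quotient.mk_out (s := s) ⟨σ, hσ⟩)⟩

end Vale.Agent.P070
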