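import Vale.Agent.P070.Rep

/-!
P070: every irreducible representation of the union of the matrix algebras lives on a separable
infinite-dimensional space, so up to equivalence on `K0`.
-/

open Filter Topology
open scoped InnerProductSpace

namespace Vale.Agent.P070

universe u

variable {H : Type u} [NormedAddCommGroup H] [InnerProductSpace ℂ H] [CompleteSpace H]

/-- The matrices of a level, in the algebra. -/
noncomputable def levelLin (hC : CarSpec.{0}) (m : ℕ) : Mat m →ₗ[ℂ] Car where
  toFun X := ⟨matOp X, hC.level_mem m X⟩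
  map_add' X Y := Subtype.ext (hC.add m X Y)
  map_smul' c X := Subtype.ext (hC.smul m c X)

/-- The matrices of a level, as a subalgebra. -/
noncomputable def levelHom (hC : CarSpec.{0}) (m : ℕ) : Mat m →ₐ[ℂ] Car :=
  AlgHom.ofLinearMap (levelLin hC m)
    (show (⟨matOp (1 : Mat m), hC.level_mem m 1⟩ : Car) = 1 from Subtype.ext (hC.one m))
    fun X Y => show (⟨matOp (X * Y), hC.level_mem m _⟩ : Car) =
      ⟨matOp X, hC.level_mem m X⟩ * ⟨matOp Y, hC.level_mem m Y⟩ from Subtype.ext (hC.mul m X Y)

theorem exists_levelHom (hC : CarSpec.{0}) (x : Car) : ∃ m X, levelHom hC m X = x := by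
  obtain ⟨m, X, hX⟩ := hC.exhaust x
  exact ⟨m, X, show (⟨matOp X, hC.level_mem m X⟩ : Car) = x from Subtype.ext hX⟩

/-- An irreducible representation acts on a separable space. -/
theorem separable_of_irred (hC : CarSpec.{0}) {π : Car →⋆ₐ[ℂ] (H →L[ℂ] H)} (hπ : IsIrred π) :
    TopologicalSpace.SeparableSpace H := by
  have := hπ.1
  obtain ⟨a, ha⟩ := exists_ne (0 : H)
  let g : (Σ m : ℕ, (Fin m → Fin 2) × (Fin m → Fin 2)) → H :=
    fun p => orbit π a (levelHom hC p.1 (Matrix.single p.2.1 p.2.2 1))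
  have hle : Set.range (orbit π a) ⊆ Submodule.span ℂ (Set.range g) := by
    rintro _ ⟨x, rfl⟩
    obtain ⟨m, X, rfl⟩ := exists_levelHom hC x
    rw [Matrix.matrix_eq_sum_single X]
    simp only [map_sum]
    refine Submodule.sum_mem _ fun s _ => Submodule.sum_mem _ fun t _ => ?_
    rw [show Matrix.single s t (X s t) = X s t • Matrix.single s t (1 : ℂ) by
      rw [Matrix.smul_single, smul_eq_mul, mul_one], map_smul, map_smul]
    exact Submodule.smul_mem _ _ (Submodule.subset_span ⟨⟨m, s, t⟩, rfl⟩)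
  rw [← TopologicalSpace.isSeparable_univ_iff, ← (dense_orbit hπ ha).closure_eq]
  exact ((((Set.countable_range g).isSeparable).span (R := ℂ)).mono hle).closure

/-- An irreducible representation acts on an infinite-dimensional space: every level embeds. -/
theorem infiniteDim_of_irred (hC : CarSpec.{0}) {π : Car →⋆ₐ[ℂ] (H →L[ℂ] H)} (hπ : IsIrred π) :
    ¬ FiniteDimensional ℂ H := by
  intro _
  have := hπ.1
  set n := Module.finrank ℂ (H →L[ℂ] H)
  let φ : Mat n →ₐ[ℂ] (H →L[ℂ] H) := π.toAlgHom.comp (levelHom hC n)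
  have hi : Function.Injective φ := φ.toRingHom.injective
  have h := LinearMap.finrank_le_finrank_of_injective (f := φ.toLinearMap) hi
  rw [Module.finrank_matrix, Module.finrank_self, mul_one, Fintype.card_fun, Fintype.card_fin,
    Fintype.card_fin] at h
  have h2 : n < 2 ^ n := Nat.lt_two_pow_self
  have h3 : 2 ^ n ≤ 2 ^ n * 2 ^ n := Nat.le_mul_of_pos_left _ (Nat.two_pow_pos n)
  omega

/-- A separable infinite-dimensional space is a copy of `K0`. -/
theorem exists_iso [TopologicalSpace.SeparableSpace H] (h : ¬ FiniteDimensional ℂ H) :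
    Nonempty (H ≃ₗᵢ[ℂ] K0) := by
  classical
  obtain ⟨w, b, -⟩ := exists_hilbertBasis ℂ H
  have hdist : ∀ i j, i ≠ j → (1 : ℝ) ≤ dist (b i) (b j) := fun i j hij => by
    have h0 : ⟪b i, b j⟫_ℂ = 0 := b.orthonormal.2 hij
    have e : dist (b i) (b j) ^ 2 = 2 := by
      rw [dist_eq_norm, norm_sub_sq (𝕜 := ℂ), h0, b.orthonormal.1, b.orthonormal.1]
      norm_num
    nlinarith [dist_nonneg (x := b i) (y := b j)]
  have : Countable w := by
    refine Pairwise.countable_of_isOpen_disjoint (α := H)
      (s := fun i : w => Metric.ball (b i) (1 / 2)) (fun i j hij => ?_)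
      (fun _ => Metric.isOpen_ball) fun i => ⟨b i, Metric.mem_ball_self (by norm_num)⟩
    exact Metric.ball_disjoint_ball ((by norm_num : (1 / 2 : ℝ) + 1 / 2 ≤ 1).trans (hdist i j hij))
  have : Infinite w := by
    by_contra hfin
    rw [not_infinite_iff_finite] at hfin
    refine h ?_
    have := FiniteDimensional.span_of_finite ℂ (Set.finite_range b)
    have e := b.dense_span
    rw [(Submodule.closed_of_finiteDimensional _).submodule_topologicalClosure_eq] at e
    exact Module.Finite.equiv (LinearEquiv.ofTop _ e)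
  obtain ⟨e⟩ := nonempty_equiv_of_countable (α := Bits) (β := w)
  exact ⟨(HilbertBasis.mk (v := b ∘ e) (b.orthonormal.comp e e.injective) (by
    rw [e.surjective.range_comp, b.dense_span])).repr⟩

/-- CLASS. -/
theorem classModule : ClassModule.{u} := by
  intro hC _ H _ _ _ π hπ
  have := separable_of_irred hC hπ
  obtain ⟨U⟩ := exists_iso (infiniteDim_of_irred hC hπ)
  let σ : Car →⋆ₐ[ℂ] (K0 →L[ℂ] K0) :=
    (U.conjStarAlgEquiv : (H →L[ℂ] H) →⋆ₐ[ℂ] (K0 →L[ℂ] K0)).comp π
  have hσ : ∀ x h, U (π x h) = σ x (U h) := fun x h => by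
    show U (π x h) = U (π x (U.symm (U h)))
    rw [U.symm_apply_apply]
  have := hπ.1
  refine ⟨σ, ⟨U.symm.toEquiv.nontrivial, fun V hV hinv => ?_⟩, U, hσ⟩
  rcases hπ.2 (V.comap U.toLinearIsometry.toLinearMap) (hV.preimage U.continuous) fun x h hh => by
      show U (π x h) ∈ V
      rw [hσ]
      exact hinv x _ hh with h0 | h0
  · refine Or.inl ((Submodule.eq_bot_iff _).2 fun k hk => ?_)
    have hm : U.symm k ∈ (⊥ : Submodule ℂ H) := h0 ▸ (show U (U.symm k) ∈ V by
      rwa [U.apply_symm_apply])
    rw [Submodule.mem_bot] at hm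
    rw [← U.apply_symm_apply k, hm, map_zero]
  · refine Or.inr ((Submodule.eq_top_iff').2 fun k => ?_)
    have hm : U.symm k ∈ V.comap U.toLinearIsometry.toLinearMap := h0 ▸ Submodule.mem_top
    rw [← U.apply_symm_apply k]
    exact hm

end Vale.Agent.P070
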