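import Mathlib

/-!
P070: the algebra of the union of the matrix algebras of finitely many binary sites, its flags and
the links between them.
-/

open Filter Topology
open scoped InnerProductSpace

namespace Vale.Agent.P070

universe u v

/-- A representation is irreducible: the space is nonzero and has no closed invariant subspace
other than zero and everything. -/
def IsIrred {A : Type} [Ring A] [StarRing A] [Algebra ℂ A] {H : Type u} [NormedAddCommGroup H]
    [InnerProductSpace ℂ H] [CompleteSpace H] (π : A →⋆ₐ[ℂ] (H →L[ℂ] H)) : Prop :=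
  Nontrivial H ∧ ∀ V : Submodule ℂ H, IsClosed (V : Set H) → (∀ x, ∀ h ∈ V, π x h ∈ V) →
    V = ⊥ ∨ V = ⊤

/-- A unitary of the spaces carries the one representation to the other. -/
def UniEquiv {A : Type} [Ring A] [StarRing A] [Algebra ℂ A] {H : Type u} [NormedAddCommGroup H]
    [InnerProductSpace ℂ H] [CompleteSpace H] {K : Type v} [NormedAddCommGroup K]
    [InnerProductSpace ℂ K] [CompleteSpace K] (π : A →⋆ₐ[ℂ] (H →L[ℂ] H))
    (σ : A →⋆ₐ[ℂ] (K →L[ℂ] K)) : Prop :=
  ∃ U : H ≃ₗᵢ[ℂ] K, ∀ x h, U (π x h) = σ x (U h)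

/-- Binary sequences with finitely many ones. -/
abbrev Bits : Type := ℕ →₀ Fin 2

/-- The space on which the algebra is given. -/
abbrev K0 : Type := lp (fun _ : Bits => ℂ) 2

/-- The matrices at the sites below `m`. -/
abbrev Mat (m : ℕ) : Type := Matrix (Fin m → Fin 2) (Fin m → Fin 2) ℂ

/-- The bits below `m`. -/
def head (m : ℕ) (j : Bits) : Fin m → Fin 2 := fun i => j i

/-- Bits below `m`, filled up with zeros. -/
noncomputable def fill {m : ℕ} (d : Fin m → Fin 2) : Bits :=
  Finsupp.embDomain Fin.valEmbedding (Finsupp.equivFunOnFinite.symm d)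

/-- Relabelling of the basis by adding `d`. -/
noncomputable def shiftOp (d : Bits) : K0 →L[ℂ] K0 :=
  LinearMap.mkContinuous
    { toFun := fun f => ⟨fun j => f (j + d), memℓp_gen
        (((lp.memℓp f).summable (by norm_num)).comp_injective (add_left_injective d))⟩
      map_add' := fun f g => lp.ext (funext fun j => rfl)
      map_smul' := fun c f => lp.ext (funext fun j => rfl) } 1 fun f => by
    have h2 : 0 < (2 : ENNReal).toReal := by norm_num
    refine le_of_eq ?_
    rw [one_mul, lp.norm_eq_tsum_rpow h2, lp.norm_eq_tsum_rpow h2]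
    congr 1
    exact (Equiv.addRight d).tsum_eq fun j => ‖f j‖ ^ (2 : ENNReal).toReal

theorem bound_entry {m : ℕ} (X : Mat m) (a b : Fin m → Fin 2) :
    ‖X a b‖ ≤ ∑ s, ∑ t, ‖X s t‖ :=
  (Finset.single_le_sum (f := fun t => ‖X a t‖) (fun _ _ => norm_nonneg _)
    (Finset.mem_univ b)).trans (Finset.single_le_sum (f := fun s => ∑ t, ‖X s t‖)
    (fun _ _ => Finset.sum_nonneg fun _ _ => norm_nonneg _) (Finset.mem_univ a))

/-- Multiplication by a bounded function. -/
noncomputable def diagOp (c : Bits → ℂ) (r : ℝ) (hr : 0 ≤ r) (hc : ∀ j, ‖c j‖ ≤ r) :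
    K0 →L[ℂ] K0 :=
  lp.mapCLM 2 (fun j => c j • ContinuousLinearMap.id ℂ ℂ) hr fun j => by
    refine (norm_smul_le (c j) (ContinuousLinearMap.id ℂ ℂ)).trans ?_
    calc ‖c j‖ * ‖ContinuousLinearMap.id ℂ ℂ‖ ≤ ‖c j‖ * 1 :=
          mul_le_mul_of_nonneg_left ContinuousLinearMap.norm_id_le (norm_nonneg _)
      _ ≤ r := (mul_one _).trans_le (hc j)

/-- A matrix acting on the bits below `m`. -/
noncomputable def matOp {m : ℕ} (X : Mat m) : K0 →L[ℂ] K0 :=
  ∑ d : Fin m → Fin 2, diagOp (fun j => X (head m j) (head m j + d)) (∑ s, ∑ t, ‖X s t‖)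
    (Finset.sum_nonneg fun _ _ => Finset.sum_nonneg fun _ _ => norm_nonneg _)
    (fun _ => bound_entry X _ _) * shiftOp (fill d)

/-- The union of the matrix algebras. -/
noncomputable def car : StarSubalgebra ℂ (K0 →L[ℂ] K0) :=
  StarAlgebra.adjoin ℂ {T | ∃ (m : ℕ) (X : Mat m), matOp X = T}

/-- The union of the matrix algebras, as a type. -/
abbrev Car : Type := ↥car

/-- The algebra on its space. -/
noncomputable abbrev baseRep : Car →⋆ₐ[ℂ] (K0 →L[ℂ] K0) := car.subtype

/-- The product vector. -/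
noncomputable def delta0 : K0 := lp.single 2 0 1

/-- Decreasing projections of `Car` that fix the unit vector `ξ` and compress every element to
its expectation in `ξ`. -/
structure IsFlag {H : Type u} [NormedAddCommGroup H] [InnerProductSpace ℂ H] [CompleteSpace H]
    (π : Car →⋆ₐ[ℂ] (H →L[ℂ] H)) (ξ : H) (p : ℕ → Car) : Prop where
  unit : ‖ξ‖ = 1
  zero : p 0 = 1
  proj : ∀ n, IsStarProjection (p n)
  below : ∀ n, p n * p (n + 1) = p (n + 1)
  fix : ∀ n, π (p n) ξ = ξ
  pins : ∀ x : Car, Tendsto (fun n => ‖p n * x * p n - ⟪ξ, π x ξ⟫_ℂ • p n‖) atTop (𝓝 0)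

/-- Partial isometries carrying the steps of `p` to the steps of `q`. -/
def Linked (p q v : ℕ → Car) : Prop :=
  ∀ k, star (v k) * v k = p k - p (k + 1) ∧ v k * star (v k) = q k - q (k + 1)

/-- One flag for every class of irreducible representations other than that of `baseRep`, linked
to a flag of the product vector. -/
structure Atlas where
  /-- The classes other than that of `baseRep`. -/
  ι : Type
  /-- A representative of each class. -/
  rep : ι → Car →⋆ₐ[ℂ] (K0 →L[ℂ] K0)
  /-- Its vector. -/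
  ξ : ι → K0
  /-- Its flag. -/
  p : ι → ℕ → Car
  /-- The flag of the product vector linked to it. -/
  q : ι → ℕ → Car
  /-- The links. -/
  v : ι → ℕ → Car
  irred : ∀ i, IsIrred (rep i)
  flag : ∀ i, IsFlag (rep i) (ξ i) (p i)
  base : ∀ i, IsFlag baseRep delta0 (q i)
  linked : ∀ i, Linked (p i) (q i) (v i)
  ne_base : ∀ i, ¬ UniEquiv (rep i) baseRep
  inj : ∀ i j, UniEquiv (rep i) (rep j) → i = j
  exhaust : ∀ σ : Car →⋆ₐ[ℂ] (K0 →L[ℂ] K0), IsIrred σ →
    UniEquiv σ baseRep ∨ ∃ i, UniEquiv σ (rep i)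

end Vale.Agent.P070
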