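import Vale.Agent.P070.Rep

/-!
P070: excision by projections inside one matrix level.
-/

open Filter Topology
open scoped InnerProductSpace ComplexConjugate

namespace Vale.Agent.P070.Excision

local instance : Nontrivial K0 :=
  ⟨⟨delta0, 0, fun h => by simpa [delta0] using congrArg (fun f : K0 => (f : Bits → ℂ) 0) h⟩⟩

theorem isometric_of (A : Type) [CStarAlgebra A] :
    IsometricContinuousFunctionalCalculus ℝ A IsSelfAdjoint := inferInstance

local instance : IsometricContinuousFunctionalCalculus ℝ (K0 →L[ℂ] K0) IsSelfAdjoint :=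
  isometric_of (K0 →L[ℂ] K0)

theorem car_spectrum_finite (hc : CarSpec.{0}) (x : Car) :
    (spectrum ℝ (x : K0 →L[ℂ] K0)).Finite := by
  obtain ⟨m, X, hX⟩ := hc.exhaust x
  let lin : Mat m →ₗ[ℂ] (K0 →L[ℂ] K0) :=
    { toFun := matOp, map_add' := hc.add m, map_smul' := fun c Y => hc.smul m c Y }
  let φ : Mat m →ₐ[ℂ] (K0 →L[ℂ] K0) := AlgHom.ofLinearMap lin (hc.one m) (hc.mul m)
  have hi : IsIntegral ℂ (x : K0 →L[ℂ] K0) := hX ▸ (IsIntegral.of_finite ℂ X).map φ
  have hC : (spectrum ℂ (x : K0 →L[ℂ] K0)).Finite := by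
    refine Set.Finite.subset (minpoly ℂ (x : K0 →L[ℂ] K0)).roots.toFinset.finite_toSet fun z hz => ?_
    have h := spectrum.subset_polynomial_aeval (x : K0 →L[ℂ] K0) (minpoly ℂ (x : K0 →L[ℂ] K0))
      ⟨z, hz, rfl⟩
    rw [minpoly.aeval, spectrum.zero_eq] at h
    simp only [Finset.mem_coe, Multiset.mem_toFinset, Polynomial.mem_roots (minpoly.ne_zero hi)]
    exact h
  rw [← spectrum.preimage_algebraMap ℂ]
  exact hC.preimage (algebraMap ℝ ℂ).injective.injOn

theorem cfc_mem (hc : CarSpec.{0}) (x : Car) (hx : IsSelfAdjoint (x : K0 →L[ℂ] K0)) (f : ℝ → ℝ) :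
    ∃ y : Car, (y : K0 →L[ℂ] K0) = cfc f (x : K0 →L[ℂ] K0) := by
  set a := (x : K0 →L[ℂ] K0)
  set s := (car_spectrum_finite hc x).toFinset with hs
  set P := Lagrange.interpolate s id f with hP
  have h1 : cfc f a = Polynomial.aeval a P := by
    rw [← cfc_polynomial P a hx]
    refine cfc_congr fun t ht => ?_
    exact (Lagrange.eval_interpolate_at_node f Function.injective_id.injOn
      ((car_spectrum_finite hc x).mem_toFinset.2 ht)).symm
  have h2 : ∀ Q : Polynomial ℝ, Polynomial.aeval a Q ∈ car := by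
    intro Q
    induction Q using Polynomial.induction_on' with
    | add P Q hP hQ => rw [map_add]; exact add_mem hP hQ
    | monomial n r =>
      rw [Polynomial.aeval_monomial, IsScalarTower.algebraMap_apply ℝ ℂ (K0 →L[ℂ] K0)]
      exact mul_mem (algebraMap_mem car _) (pow_mem x.2 n)
  exact ⟨⟨_, h1 ▸ h2 P⟩, rfl⟩

theorem schur_sa (π : Car →⋆ₐ[ℂ] (K0 →L[ℂ] K0)) (hπ : IsIrred π) (T : K0 →L[ℂ] K0)
    (hT : IsSelfAdjoint T) (hcm : ∀ x, Commute T (π x)) : ∃ c : ℂ, T = c • 1 := by
  obtain ⟨a, ha⟩ := ContinuousFunctionalCalculus.spectrum_nonempty (R := ℝ) T hT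
  by_cases hsub : spectrum ℝ T ⊆ {a}
  · refine ⟨(a : ℂ), ?_⟩
    rw [CFC.eq_algebraMap_of_spectrum_subset_singleton T a hsub, Algebra.algebraMap_eq_smul_one]
    exact (Complex.coe_smul a (1 : K0 →L[ℂ] K0)).symm
  exfalso
  obtain ⟨b, hb, hab⟩ : ∃ b ∈ spectrum ℝ T, b ≠ a := Set.not_subset.1 hsub
  set c := (a + b) / 2 with hc
  have key : ∀ f g : ℝ → ℝ, Continuous f → Continuous g → (∀ t, f t * g t = 0) →
      f b ≠ 0 → g a ≠ 0 → False := by
    intro f g hf hg hfg hfb hga
    have hne : ∀ (k : ℝ → ℝ), Continuous k → ∀ t ∈ spectrum ℝ T, k t ≠ 0 → cfc k T ≠ 0 := by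
      intro k hk t ht hkt h0
      have h := cfc_map_spectrum (R := ℝ) k T hT hk.continuousOn
      rw [h0, spectrum.zero_eq] at h
      exact hkt (h.ge ⟨t, ht, rfl⟩)
    set F := cfc f T
    set G := cfc g T
    have hFG : F * G = 0 := by
      rw [← cfc_mul f g T hf.continuousOn hg.continuousOn,
        show (fun t => f t * g t) = fun _ => (0 : ℝ) from funext hfg]
      exact cfc_const_zero ℝ T
    rcases hπ.2 (LinearMap.ker F.toLinearMap) F.isClosed_ker (fun x v hv => by
      have h : F * π x = π x * F := ((hcm x).cfc_real f).eq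
      have h' := DFunLike.congr_fun h v
      rw [mul_apply_eq_comp, mul_apply_eq_comp] at h'
      have hv' : F v = 0 := hv
      show F (π x v) = 0
      rw [h', hv', map_zero]) with h | h
    · refine hne g hg a ha hga (ContinuousLinearMap.ext fun v => ?_)
      have : G v ∈ LinearMap.ker F.toLinearMap := DFunLike.congr_fun hFG v
      rw [h, Submodule.mem_bot] at this
      exact this
    · refine hne f hf b hb hfb (ContinuousLinearMap.ext fun v => ?_)
      have : v ∈ LinearMap.ker F.toLinearMap := by rw [h]; trivial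
      exact this
  rcases lt_or_gt_of_ne hab with h | h
  · refine key (fun t => max (c - t) 0) (fun t => max (t - c) 0) (by fun_prop) (by fun_prop)
      (fun t => ?_) ?_ ?_
    · rcases le_total t c with h' | h'
      · rw [max_eq_right (sub_nonpos.2 h'), mul_zero]
      · rw [max_eq_right (sub_nonpos.2 h'), zero_mul]
    · exact (lt_max_of_lt_left (by rw [hc]; linarith)).ne'
    · exact (lt_max_of_lt_left (by rw [hc]; linarith)).ne'
  · refine key (fun t => max (t - c) 0) (fun t => max (c - t) 0) (by fun_prop) (by fun_prop)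
      (fun t => ?_) ?_ ?_
    · rcases le_total t c with h' | h'
      · rw [max_eq_right (sub_nonpos.2 h'), zero_mul]
      · rw [max_eq_right (sub_nonpos.2 h'), mul_zero]
    · exact (lt_max_of_lt_left (by rw [hc]; linarith)).ne'
    · exact (lt_max_of_lt_left (by rw [hc]; linarith)).ne'

theorem schur (π : Car →⋆ₐ[ℂ] (K0 →L[ℂ] K0)) (hπ : IsIrred π) (T : K0 →L[ℂ] K0)
    (hcm : ∀ x, Commute T (π x)) : ∃ c : ℂ, T = c • 1 := by
  have hs : ∀ x, Commute (star T) (π x) := fun x => by
    have h := (hcm (star x)).star_star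
    rwa [map_star, star_star] at h
  obtain ⟨r, hr⟩ := schur_sa π hπ _ (realPart T).2 fun x => by
    rw [realPart_apply_coe]
    exact ((hcm x).add_left (hs x)).smul_left _
  obtain ⟨s, hsI⟩ := schur_sa π hπ _ (imaginaryPart T).2 fun x => by
    rw [imaginaryPart_apply_coe]
    exact (((hcm x).sub_left (hs x)).smul_left _).smul_left _
  refine ⟨r + Complex.I * s, ?_⟩
  conv_lhs => rw [← realPart_add_I_smul_imaginaryPart T, hr, hsI]
  rw [smul_smul, ← add_smul]

/-- In an irreducible representation every operator is approximated on two vectors. -/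
theorem dense_two (π : Car →⋆ₐ[ℂ] (K0 →L[ℂ] K0)) (hπ : IsIrred π) (T : K0 →L[ℂ] K0)
    (v : Fin 2 → K0) : (T (v 0), T (v 1)) ∈ closure (Set.range fun x => (π x (v 0), π x (v 1))) := by
  set e := PiLp.continuousLinearEquiv 2 ℂ (fun _ : Fin 2 => K0) with he
  let D : (K0 →L[ℂ] K0) → (PiLp 2 (fun _ : Fin 2 => K0) →L[ℂ] PiLp 2 (fun _ : Fin 2 => K0)) :=
    fun A => e.symm.toContinuousLinearMap.comp ((ContinuousLinearMap.pi fun i =>
      A.comp (ContinuousLinearMap.proj i)).comp e.toContinuousLinearMap)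
  have hD : ∀ A w i, (D A w) i = A (w i) := fun A w i => rfl
  let o : Car →ₗ[ℂ] PiLp 2 (fun _ : Fin 2 => K0) :=
    { toFun := fun x => WithLp.toLp 2 (fun i => π x (v i))
      map_add' := fun x y => by ext i : 1; simp
      map_smul' := fun c x => by ext i : 1; simp }
  set V := (LinearMap.range o).topologicalClosure with hV
  set P := V.starProjection
  have hinv : ∀ y, ∀ w ∈ V, D (π y) w ∈ V := fun y w hw => by
    have hle : V ≤ V.comap (D (π y)).toLinearMap := by
      refine Submodule.topologicalClosure_minimal _ ?_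
        ((Submodule.isClosed_topologicalClosure _).preimage (D (π y)).continuous)
      rintro _ ⟨x, rfl⟩
      refine Submodule.le_topologicalClosure _ ⟨y * x, ?_⟩
      ext i : 1
      show π (y * x) (v i) = π y (π x (v i))
      rw [map_mul, mul_apply_eq_comp]
    exact hle hw
  have hcomm : ∀ y w, P (D (π y) w) = D (π y) (P w) := fun y w => by
    refine Submodule.eq_starProjection_of_mem_of_inner_eq_zero
      (hinv y _ (Submodule.starProjection_apply_mem V w)) fun u hu => ?_
    rw [← map_sub, PiLp.inner_apply]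
    have h0 : ⟪w - P w, D (π (star y)) u⟫_ℂ = 0 :=
      Submodule.inner_left_of_mem_orthogonal (hinv (star y) u hu)
        (Submodule.sub_starProjection_mem_orthogonal w)
    rw [PiLp.inner_apply] at h0
    rw [← h0]
    refine Finset.sum_congr rfl fun i _ => ?_
    rw [hD, hD, map_star, ContinuousLinearMap.star_eq_adjoint,
      ContinuousLinearMap.adjoint_inner_right]
  let Pij : Fin 2 → Fin 2 → (K0 →L[ℂ] K0) := fun i j =>
    (ContinuousLinearMap.proj i).comp (e.toContinuousLinearMap.comp (P.comp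
      (e.symm.toContinuousLinearMap.comp (ContinuousLinearMap.single ℂ (fun _ : Fin 2 => K0) j))))
  have hsum : ∀ w i, (P w) i = ∑ j, Pij i j (w j) := fun w i => by
    have h1 : w = ∑ j, e.symm (Pi.single j (w j)) := by
      rw [← map_sum, Finset.univ_sum_single]
      exact (e.symm_apply_apply w).symm
    conv_lhs => rw [h1, map_sum]
    change e (∑ j, P (e.symm (Pi.single j (w j)))) i = _
    rw [map_sum, Finset.sum_apply]
    rfl
  choose c hc using fun i j => schur π hπ (Pij i j) fun y => ContinuousLinearMap.ext fun a => by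
    show (P (e.symm (Pi.single j (π y a)))) i = π y ((P (e.symm (Pi.single j a))) i)
    have h2 : D (π y) (e.symm (Pi.single j a)) = e.symm (Pi.single j (π y a)) := by
      ext k : 1
      exact Pi.apply_single (fun _ => π y) (fun _ => map_zero _) j a k
    rw [← h2, hcomm]
    rfl
  set v' : PiLp 2 (fun _ : Fin 2 => K0) := WithLp.toLp 2 v
  have hv : P v' = v' := Submodule.starProjection_eq_self_iff.2
    (Submodule.le_topologicalClosure _ ⟨1, by ext i : 1; simp [o, v']⟩)
  have hTv : D T v' ∈ V := by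
    rw [← Submodule.starProjection_eq_self_iff]
    ext i : 1
    rw [hsum, hD]
    conv_rhs => rw [← hv, hsum, map_sum]
    refine Finset.sum_congr rfl fun j _ => ?_
    rw [hD, hc, smul_apply, smul_apply, one_apply_eq_self, one_apply_eq_self, map_smul]
  let g : PiLp 2 (fun _ : Fin 2 => K0) → K0 × K0 := fun w => (w 0, w 1)
  have hg : Continuous g := by fun_prop
  have h := mem_closure_image hg.continuousAt
    (show D T v' ∈ closure (Set.range o) from hTv)
  rw [← Set.range_comp] at h
  exact h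

/-- Self-adjoint elements move a vector to every vector orthogonal to it. -/
theorem dense_sa (π : Car →⋆ₐ[ℂ] (K0 →L[ℂ] K0)) (hπ : IsIrred π) {ξ η : K0}
    (hξ : ‖ξ‖ = 1) (hη : ⟪ξ, η⟫_ℂ = 0) {e : ℝ} (he : 0 < e) :
    ∃ b : Car, IsSelfAdjoint b ∧ ‖π b ξ - η‖ < e := by
  set S : Set K0 := (fun b => π b ξ) '' {b : Car | IsSelfAdjoint b}
  suffices h : η ∈ closure S by
    obtain ⟨_, ⟨b, hb, rfl⟩, hd⟩ := Metric.mem_closure_iff.1 h e he
    exact ⟨b, hb, by rwa [← dist_eq_norm, dist_comm]⟩
  by_contra hne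
  have hconv : Convex ℝ S := by
    rintro _ ⟨b, hb, rfl⟩ _ ⟨b', hb', rfl⟩ s t _ _ _
    refine ⟨(s : ℂ) • b + (t : ℂ) • b', ?_, ?_⟩
    · exact (IsSelfAdjoint.smul (Complex.conj_ofReal s) hb).add
        (IsSelfAdjoint.smul (Complex.conj_ofReal t) hb')
    · simp only [map_add, map_smul, add_apply, smul_apply]
      simp only [Complex.coe_smul]
      rfl
  obtain ⟨f, u, hfu, hfη⟩ :=
    RCLike.geometric_hahn_banach_closed_point (𝕜 := ℂ) hconv.closure isClosed_closure hne
  set y := (InnerProductSpace.toDual ℂ K0).symm f with hy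
  have hf : ∀ w, f w = ⟪y, w⟫_ℂ := fun w => (InnerProductSpace.toDual_symm_apply).symm
  have hu : 0 < u := by
    have := hfu 0 (subset_closure ⟨0, IsSelfAdjoint.zero _, by simp⟩)
    simpa using this
  have hre : ∀ b : Car, IsSelfAdjoint b → (⟪y, π b ξ⟫_ℂ).re = 0 := fun b hb => by
    by_contra h
    have := hfu _ (subset_closure
      ⟨(((u + 1) / (⟪y, π b ξ⟫_ℂ).re : ℝ) : ℂ) • b,
        IsSelfAdjoint.smul (Complex.conj_ofReal _) hb, rfl⟩)
    simp only at this
    rw [map_smul, smul_apply, hf, inner_smul_right, RCLike.re_to_complex,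
      Complex.re_ofReal_mul, div_mul_cancel₀ _ h] at this
    linarith
  set G : K0 × K0 → ℂ := fun w => ⟪y, w.1⟫_ℂ + ⟪ξ, w.2⟫_ℂ
  have hG : ∀ x : Car, G (π x ξ, π x y) = 0 := by
    have hsa : ∀ b : Car, IsSelfAdjoint b → G (π b ξ, π b y) = 0 := fun b hb => by
      have hb' : IsSelfAdjoint (π b) := hb.map π
      show ⟪y, π b ξ⟫_ℂ + ⟪ξ, π b y⟫_ℂ = 0
      rw [show ⟪ξ, π b y⟫_ℂ = conj ⟪y, π b ξ⟫_ℂ by
        rw [inner_conj_symm]
        conv_rhs => rw [← hb'.star_eq, ContinuousLinearMap.star_eq_adjoint,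
          ContinuousLinearMap.adjoint_inner_left], Complex.add_conj, hre b hb]
      simp
    intro x
    have h1 := hsa _ (realPart x).2
    have h2 := hsa _ (imaginaryPart x).2
    rw [← realPart_add_I_smul_imaginaryPart x]
    simp only [G, map_add, map_smul, add_apply, smul_apply, inner_add_right,
      inner_smul_right] at h1 h2 ⊢
    linear_combination h1 + Complex.I * h2
  set T : K0 →L[ℂ] K0 := InnerProductSpace.rankOne ℂ η ξ + InnerProductSpace.rankOne ℂ ξ η
  have hGT : G (T ξ, T y) = 0 := by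
    have hc : IsClosed {w : K0 × K0 | G w = 0} := isClosed_eq (by fun_prop) continuous_const
    exact closure_minimal (by rintro _ ⟨x, rfl⟩; exact hG x) hc (dense_two π hπ T ![ξ, y])
  have hηξ : ⟪η, ξ⟫_ℂ = 0 := inner_eq_zero_symm.1 hη
  have hξξ : ⟪ξ, ξ⟫_ℂ = 1 := by rw [inner_self_eq_norm_sq_to_K, hξ]; simp
  simp only [G, T, add_apply, InnerProductSpace.rankOne_apply, hξξ, hηξ, one_smul, zero_smul,
    add_zero, inner_add_right, inner_smul_right, hη, mul_zero, zero_add, mul_one] at hGT
  have := congrArg Complex.re hGT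
  rw [← inner_conj_symm η y, Complex.add_conj] at this
  rw [hf, RCLike.re_to_complex] at hfη
  simp at this
  linarith

/-- Every vector orthogonal to a unit vector is nearly the image of it under an element whose
adjoint nearly kills it. -/
theorem exists_mover (π : Car →⋆ₐ[ℂ] (K0 →L[ℂ] K0)) (hπ : IsIrred π) {ξ η : K0}
    (hξ : ‖ξ‖ = 1) (hη : ⟪ξ, η⟫_ℂ = 0) {e : ℝ} (he : 0 < e) :
    ∃ c : Car, ‖π c ξ - η‖ < e ∧ ‖π (star c) ξ‖ < e := by
  obtain ⟨b, hb, hbe⟩ := dense_sa π hπ hξ (η := (1 / 2 : ℂ) • η)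
    (by rw [inner_smul_right, hη, mul_zero]) (half_pos he)
  obtain ⟨b', hb', hbe'⟩ := dense_sa π hπ hξ (η := (-Complex.I / 2) • η)
    (by rw [inner_smul_right, hη, mul_zero]) (half_pos he)
  refine ⟨b + Complex.I • b', ?_, ?_⟩
  · have h : π (b + Complex.I • b') ξ - η = (π b ξ - (1 / 2 : ℂ) • η) +
        Complex.I • (π b' ξ - (-Complex.I / 2) • η) := by
      rw [map_add, map_smul, add_apply, smul_apply]
      match_scalars <;> first
        | ring1
        | linear_combination (-1 / 2 : ℂ) * Complex.I_mul_I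
    rw [h]
    refine (norm_add_le _ _).trans_lt ?_
    rw [norm_smul, Complex.norm_I, one_mul]
    linarith
  · have h : π (star (b + Complex.I • b')) ξ = (π b ξ - (1 / 2 : ℂ) • η) -
        Complex.I • (π b' ξ - (-Complex.I / 2) • η) := by
      rw [star_add, star_smul, hb.star_eq, hb'.star_eq, map_add, map_smul, add_apply, smul_apply,
        Complex.star_def, Complex.conj_I]
      match_scalars <;> first
        | ring1
        | linear_combination (1 / 2 : ℂ) * Complex.I_mul_I
    rw [h]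
    refine (norm_sub_le _ _).trans_lt ?_
    rw [norm_smul, Complex.norm_I, one_mul]
    linarith

/-- The spectral projection of a positive element of a level below a threshold. -/
theorem spectral_cut (hc : CarSpec.{0}) (M : Car) (hM0 : (0 : K0 →L[ℂ] K0) ≤ baseRep M) {δ : ℝ}
    (hδ0 : 0 < δ) :
    ∃ G W : Car, IsStarProjection G ∧ star W * W = M - (δ : ℂ) • (1 - G) ∧
      ‖baseRep (G * M * G)‖ ≤ δ ∧ ∀ a : Car, M * a = a * M → G * a = a * G := by
  set L : Car →⋆ₐ[ℂ] (K0 →L[ℂ] K0) := baseRep with hL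
  have hMsa : IsSelfAdjoint (L M) := IsSelfAdjoint.of_nonneg hM0
  have hfin : (spectrum ℝ (L M)).Finite := car_spectrum_finite hc M
  have hpos : ∀ t ∈ spectrum ℝ (L M), 0 ≤ t := fun t ht => spectrum_nonneg_of_nonneg hM0 ht
  set g : ℝ → ℝ := fun t => if t ≤ δ then 1 else 0 with hg
  obtain ⟨G, hG⟩ := cfc_mem hc M hMsa g
  obtain ⟨W, hW⟩ := cfc_mem hc M hMsa fun t => Real.sqrt (t - δ * (1 - g t))
  replace hG : L G = cfc g (L M) := hG
  replace hW : L W = cfc (fun t => Real.sqrt (t - δ * (1 - g t))) (L M) := hW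
  have inj : ∀ a b : Car, L a = L b → a = b := fun a b h => Subtype.ext h
  have cont : ∀ f : ℝ → ℝ, ContinuousOn f (spectrum ℝ (L M)) := fun f => hfin.continuousOn f
  have hgg : ∀ t, g t * g t = g t := fun t => by
    by_cases h : t ≤ δ <;> simp [hg, h]
  refine ⟨G, W, ⟨?_, ?_⟩, ?_, ?_, ?_⟩
  · show G * G = G
    refine inj _ _ ?_
    rw [map_mul, hG, ← cfc_mul g g _ (cont _) (cont _)]
    exact cfc_congr fun t _ => hgg t
  · show star G = G
    refine inj _ _ ?_
    rw [map_star, hG]
    exact (cfc_predicate g (L M)).star_eq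
  · refine inj _ _ ?_
    rw [map_sub, map_mul, map_star, map_smul, map_sub, map_one, hW,
      (cfc_predicate (R := ℝ) (fun t => Real.sqrt (t - δ * (1 - g t))) (L M)).star_eq, ← cfc_mul _ _ _ (cont _) (cont _), hG, Complex.coe_smul,
      cfc_congr (g := fun t => t - δ * (1 - g t)) fun t ht => ?_]
    · rw [cfc_sub _ _ _ (cont _) (cont _), cfc_id' ℝ (L M), cfc_const_mul δ _ _ (cont _),
        cfc_sub _ _ _ (cont _) (cont _), cfc_const_one ℝ (L M)]
      rfl
    · refine Real.mul_self_sqrt ?_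
      have := hpos t ht
      by_cases h : t ≤ δ <;> simp [hg, h] <;> linarith
  · rw [map_mul, map_mul, hG]
    nth_rw 2 [← cfc_id' ℝ (L M)]
    rw [← cfc_mul _ _ _ (cont _) (cont _), ← cfc_mul _ _ _ (cont _) (cont _)]
    refine norm_cfc_le hδ0.le fun t ht => ?_
    have := hpos t ht
    by_cases h : t ≤ δ
    · simp [hg, h, abs_of_nonneg this]
    · simp [hg, h, hδ0.le]
  · intro a ha
    refine inj _ _ ?_
    rw [map_mul, map_mul, hG]
    exact (Commute.cfc_real (show L M * L a = L a * L M by rw [← map_mul, ← map_mul, ha]) g).eq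

/-- A positive term of a sum that is small under a projection is small under it. -/
theorem norm_mul_proj_le (a q S : Car) (hq : star q = q)
    (ha : baseRep (star a * a) ≤ baseRep S) :
    ‖baseRep (a * q)‖ ^ 2 ≤ ‖baseRep (q * S * q)‖ := by
  rw [sq, ← CStarRing.norm_star_mul_self, ← map_star, ← map_mul, star_mul, hq,
    show q * star a * (a * q) = q * (star a * a) * q by simp only [mul_assoc]]
  rw [map_mul, map_mul, map_mul baseRep (q * S), map_mul baseRep q S]
  have hle := star_left_conjugate_le_conjugate ha (baseRep q)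
  rw [← map_star, hq] at hle
  refine CStarAlgebra.norm_le_norm_of_nonneg_of_le ?_ hle
  rw [map_mul, map_star]
  have h0 := star_left_conjugate_le_conjugate (star_mul_self_nonneg (baseRep a)) (baseRep q)
  rwa [mul_zero, zero_mul, ← map_star baseRep q, hq] at h0

/-- The cut moves the vector by little. -/
theorem cut_vec (π : Car →⋆ₐ[ℂ] (K0 →L[ℂ] K0)) {G W M : Car} {δ : ℝ} (hG : IsStarProjection G)
    (hW : star W * W = M - (δ : ℂ) • (1 - G)) (ξ : K0) :
    δ * ‖π (1 - G) ξ‖ ^ 2 ≤ (⟪ξ, π M ξ⟫_ℂ).re := by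
  have h1 : 0 ≤ (⟪ξ, π (star W * W) ξ⟫_ℂ).re := by
    rw [← norm_rep_sq]
    exact sq_nonneg _
  rw [norm_proj_sq (hG.one_sub.map π)]
  rw [hW, map_sub, map_smul, sub_apply, smul_apply, inner_sub_right, inner_smul_right,
    Complex.sub_re, Complex.re_ofReal_mul] at h1
  linarith

/-- The error budget. -/
theorem budget (n : ℕ) {δ ε : ℝ} (hδ : 0 < δ) (hε : 0 < ε) :
    (n : ℝ) * (2 * (Real.sqrt (δ * ε ^ 2 / (4 * ((n : ℝ) + 1)))) ^ 2) < δ * ε ^ 2 := by
  rw [Real.sq_sqrt (by positivity), show (n : ℝ) * (2 * (δ * ε ^ 2 / (4 * ((n : ℝ) + 1)))) =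
    δ * ε ^ 2 * ((n : ℝ) / (2 * ((n : ℝ) + 1))) by field_simp; ring]
  refine mul_lt_of_lt_one_right (by positivity) ?_
  rw [div_lt_one (by positivity)]
  have : (0 : ℝ) ≤ n := Nat.cast_nonneg _
  linarith

theorem excise (hc : CarSpec.{0}) : ExciseSpec := by
  intro π hπ p hp ξ hξ hpξ X ε hε
  set ψ : Car → ℂ := fun x => ⟪ξ, π x ξ⟫_ℂ with hψ
  set T : Car → Car := fun x => x - ψ x • 1
  have horth : ∀ x, ⟪ξ, π (T x) ξ⟫_ℂ = 0 := fun x => by
    simp only [T, map_sub, map_smul, map_one, sub_apply, smul_apply, one_apply_eq_self,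
      inner_sub_right, inner_smul_right, inner_self_eq_norm_sq_to_K, hξ, hψ]
    simp
  set δ : ℝ := (ε / 3) ^ 2 with hδ
  have hδ0 : 0 < δ := by positivity
  set e : ℝ := Real.sqrt (δ * ε ^ 2 / (4 * ((X.card : ℝ) + 1))) with he
  have he0 : 0 < e := Real.sqrt_pos.2 (by positivity)
  choose c hc1 hc2 using fun x => exists_mover π hπ hξ (horth x) he0
  set d : Car → Car := fun x => T x - c x
  set S : Car := ∑ x ∈ X, (c x * star (c x) + star (d x) * d x) with hS
  set M : Car := p * S * p with hM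
  set L : Car →⋆ₐ[ℂ] (K0 →L[ℂ] K0) := baseRep with hL
  have hpp : p * p = p := hp.isIdempotentElem.eq
  have hps : star p = p := hp.isSelfAdjoint.star_eq
  have hS0 : 0 ≤ L S := by
    rw [hS, map_sum]
    refine Finset.sum_nonneg fun x _ => ?_
    rw [map_add, map_mul, map_mul, map_star, map_star]
    exact add_nonneg (mul_star_self_nonneg _) (star_mul_self_nonneg _)
  have hM0 : 0 ≤ L M := by
    have := star_left_conjugate_le_conjugate hS0 (L p)
    rwa [mul_zero, zero_mul, ← map_star, hps, ← map_mul, ← map_mul] at this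
  obtain ⟨G, W, hGproj, hW2, hGMG, hGc⟩ := spectral_cut hc M hM0 hδ0
  have hGG : G * G = G := hGproj.isIdempotentElem.eq
  have hGs : star G = G := hGproj.isSelfAdjoint.star_eq
  have hGp : G * p = p * G := hGc p (by
    rw [hM, mul_assoc (p * S), hpp, ← mul_assoc p, ← mul_assoc p, hpp])
  refine ⟨G * p, ⟨?_, ?_⟩, ?_, ?_, ?_⟩
  · show G * p * (G * p) = G * p
    rw [mul_assoc, ← mul_assoc p, ← hGp, mul_assoc G p p, hpp, ← mul_assoc, hGG]
  · show star (G * p) = G * p
    rw [star_mul, hps, hGs, hGp]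
  · rw [← mul_assoc, ← hGp, mul_assoc, hpp]
  · have hSξ : (⟪ξ, π S ξ⟫_ℂ).re ≤ (X.card : ℝ) * (2 * e ^ 2) := by
      rw [hS, map_sum, sum_apply, inner_sum, Complex.re_sum, ← nsmul_eq_mul,
        ← Finset.sum_const]
      refine Finset.sum_le_sum fun x _ => ?_
      rw [map_add, add_apply, inner_add_right, Complex.add_re,
        ← norm_rep_sq, show c x * star (c x) = star (star (c x)) * star (c x) by rw [star_star],
        ← norm_rep_sq, two_mul]
      refine add_le_add ?_ ?_
      · exact pow_le_pow_left₀ (norm_nonneg _) (hc2 x).le 2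
      · refine pow_le_pow_left₀ (norm_nonneg _) ?_ 2
        rw [map_sub, sub_apply, ← norm_neg, neg_sub]
        exact (hc1 x).le
    have hMξ : ⟪ξ, π M ξ⟫_ℂ = ⟪ξ, π S ξ⟫_ℂ := by
      rw [hM, map_mul, map_mul, mul_apply_eq_comp, mul_apply_eq_comp, hpξ,
        inner_proj (hp.map π), hpξ]
    have h1 := cut_vec π hGproj hW2 ξ
    rw [hMξ] at h1
    have h3 : (X.card : ℝ) * (2 * e ^ 2) < δ * ε ^ 2 := budget X.card hδ0 hε
    have h4 : π (G * p) ξ - ξ = -(π (1 - G) ξ) := by
      rw [map_mul, mul_apply_eq_comp, hpξ, map_sub, map_one, sub_apply, one_apply_eq_self,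
        neg_sub]
    rw [h4, norm_neg]
    exact lt_of_pow_lt_pow_left₀ 2 hε.le
      (lt_of_mul_lt_mul_left (by linarith) hδ0.le)
  · intro x hx
    obtain ⟨q, hq⟩ : ∃ q : Car, q = G * p := ⟨_, rfl⟩
    rw [← hq]
    have hqs : star q = q := by rw [hq, star_mul, hps, hGs, hGp]
    have hqq : q * q = q := by
      rw [hq, mul_assoc, ← mul_assoc p, ← hGp, mul_assoc G p p, hpp, ← mul_assoc, hGG]
    have hqT : q * x * q - ψ x • q = q * c x * q + q * d x * q := by
      rw [← add_mul, ← mul_add, add_sub_cancel, mul_sub, sub_mul, mul_smul_comm, mul_one,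
        smul_mul_assoc, hqq]
    have hqS : q * S * q = G * M * G := by
      rw [hq, hM]
      conv_lhs => arg 2; rw [hGp]
      simp only [mul_assoc]
    have key : ∀ a : Car, L (star a * a) ≤ L S → ‖L (a * q)‖ ≤ Real.sqrt δ := fun a ha =>
      Real.le_sqrt_of_sq_le ((norm_mul_proj_le a q S hqs ha).trans (by rw [hqS]; exact hGMG))
    have hterm : L (c x * star (c x) + star (d x) * d x) ≤ L S := by
      rw [hS, map_sum]
      refine Finset.single_le_sum (f := fun i => L (c i * star (c i) + star (d i) * d i))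
        (fun i _ => ?_) hx
      rw [map_add, map_mul, map_mul, map_star, map_star]
      exact add_nonneg (mul_star_self_nonneg _) (star_mul_self_nonneg _)
    have k1 : ‖L (star (c x) * q)‖ ≤ Real.sqrt δ := key _ <| by
      rw [star_star]
      refine le_trans ?_ hterm
      rw [map_add, map_mul (f := L) (star (d x)), map_star]
      exact le_add_of_nonneg_right (star_mul_self_nonneg _)
    have k2 : ‖L (d x * q)‖ ≤ Real.sqrt δ := key _ <| by
      refine le_trans ?_ hterm
      rw [map_add, map_mul (f := L) (c x), map_star]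
      exact le_add_of_nonneg_left (mul_star_self_nonneg _)
    have hn1 : ‖L q‖ ≤ 1 := IsStarProjection.norm_le _ (IsStarProjection.map ⟨hqq, hqs⟩ L)
    show ‖L (q * x * q - ψ x • q)‖ < ε
    rw [hqT, map_add]
    refine (norm_add_le _ _).trans_lt ?_
    have s1 : ‖L (q * c x * q)‖ ≤ Real.sqrt δ * 1 := by
      rw [map_mul]
      refine (norm_mul_le _ _).trans (mul_le_mul ?_ hn1 (norm_nonneg _) (Real.sqrt_nonneg _))
      rwa [← norm_star, ← map_star, star_mul, hqs]
    have s2 : ‖L (q * d x * q)‖ ≤ 1 * Real.sqrt δ := by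
      rw [mul_assoc, map_mul]
      exact (norm_mul_le _ _).trans (mul_le_mul hn1 k2 (norm_nonneg _) zero_le_one)
    have hsq : Real.sqrt δ = ε / 3 := by rw [hδ, Real.sqrt_sq (by linarith)]
    linarith

end Vale.Agent.P070.Excision

namespace Vale.Agent.P070

/-- EXCISE from MODEL. -/
theorem exciseModule : ExciseModule := Excision.excise

end Vale.Agent.P070
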