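import Vale.Agent.P070.Model
import Vale.Agent.P070.Link.Spec

/-!
P070, LINK: iterating the step gives a flag linked to a flag of the product vector.
-/

open Filter Topology
open scoped InnerProductSpace

namespace Vale.Agent.P070.Link

variable (hC : CarSpec.{0})

open scoped Classical in
theorem cyl_apply {m : ℕ} (a : Fin m → Fin 2) (f : K0) (j : Bits) :
    (cyl hC m a : K0 →L[ℂ] K0) f j = if head m j = a then f j else 0 := by
  show matOp (Matrix.single a a (1 : ℂ)) f j = _
  rw [Model.matOp_apply, Finset.sum_eq_single a]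
  · by_cases h : head m j = a
    · subst h
      simp [Model.put]
      rw [show fill (0 : Fin m → Fin 2) = 0 from Finsupp.ext fun k => by
        rcases lt_or_ge k m with hk | hk
        exacts [Model.fill_apply_lt 0 hk, Model.fill_apply_le 0 hk], add_zero]
    · simp [h, Ne.symm h]
  · intro b _ hb
    simp [Ne.symm hb]
  · exact fun h => absurd (Finset.mem_univ _) h

theorem cyl_proj {m : ℕ} (a : Fin m → Fin 2) : IsStarProjection (cyl hC m a) := by
  refine ⟨Subtype.ext ?_, Subtype.ext ?_⟩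
  · show matOp (Matrix.single a a (1 : ℂ)) * matOp (Matrix.single a a (1 : ℂ)) = _
    rw [← hC.mul, Matrix.single_mul_single_same, mul_one]
    rfl
  · show star (matOp (Matrix.single a a (1 : ℂ))) = _
    rw [← hC.adj, Matrix.conjTranspose_single, star_one]
    rfl

theorem head_zero_of_le {k m : ℕ} (h : k ≤ m) {j : Bits} (hj : head m j = 0) : head k j = 0 :=
  funext fun i => congrFun hj ⟨i, i.2.trans_le h⟩

theorem cyl_mul_of_le {k m : ℕ} (h : k ≤ m) :
    cyl hC k 0 * cyl hC m 0 = cyl hC m 0 := by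
  classical
  refine Subtype.ext (ContinuousLinearMap.ext fun f => lp.ext (funext fun j => ?_))
  show (cyl hC k 0 : K0 →L[ℂ] K0) ((cyl hC m 0 : K0 →L[ℂ] K0) f) j = _
  rw [cyl_apply]
  split_ifs with h1
  · rfl
  · rw [cyl_apply, if_neg fun h2 => h1 (head_zero_of_le h h2)]

theorem cyl_mul_of_le' {k m : ℕ} (h : k ≤ m) :
    cyl hC m 0 * cyl hC k 0 = cyl hC m 0 := by
  have := congrArg star (cyl_mul_of_le hC h)
  rwa [star_mul, (cyl_proj hC _).isSelfAdjoint.star_eq,
    (cyl_proj hC _).isSelfAdjoint.star_eq] at this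

theorem cyl_delta0 (m : ℕ) : (cyl hC m 0 : K0 →L[ℂ] K0) delta0 = delta0 := by
  classical
  refine lp.ext (funext fun j => ?_)
  rw [cyl_apply]
  split_ifs with h
  · rfl
  · show 0 = Model.δ 0 j
    rw [Model.δ_apply, if_neg]
    rintro rfl
    exact h rfl

/-- A matrix of a level, in the algebra. -/
noncomputable def elt {k : ℕ} (X : Mat k) : Car := ⟨matOp X, hC.level_mem k X⟩

theorem elt_eq_sum {k : ℕ} (X : Mat k) :
    elt hC X = ∑ s, ∑ t, X s t • elt hC (Matrix.single s t (1 : ℂ)) := by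
  have hh : ∀ {α : Type} (S : Finset α) (F : α → Mat k),
      matOp (∑ i ∈ S, F i) = ∑ i ∈ S, matOp (F i) := fun S F =>
    map_sum (AddMonoidHom.mk' (fun Y => matOp Y) (hC.add k)) F S
  refine Subtype.ext ?_
  show matOp X = baseRep (∑ s, ∑ t, X s t • elt hC (Matrix.single s t (1 : ℂ)))
  simp only [map_sum, map_smul]
  show matOp X = ∑ s, ∑ t, X s t • matOp (Matrix.single s t (1 : ℂ))
  conv_lhs => rw [Matrix.matrix_eq_sum_single X]
  simp only [hh]
  refine Finset.sum_congr rfl fun s _ => Finset.sum_congr rfl fun t _ => ?_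
  rw [← hC.smul, Matrix.smul_single, smul_eq_mul, mul_one]

theorem cyl_elt_cyl {k m : ℕ} (h : k ≤ m) (X : Mat k) :
    cyl hC m 0 * elt hC X * cyl hC m 0 = X 0 0 • cyl hC m 0 := by
  have e : cyl hC k 0 * elt hC X * cyl hC k 0 = X 0 0 • cyl hC k 0 := by
    refine Subtype.ext ?_
    show matOp (Matrix.single (0 : Fin k → Fin 2) 0 (1 : ℂ)) * matOp X *
      matOp (Matrix.single (0 : Fin k → Fin 2) 0 (1 : ℂ)) = _
    rw [← hC.mul, ← hC.mul, Matrix.single_mul_mul_single, one_mul, mul_one]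
    show _ = X 0 0 • matOp (Matrix.single (0 : Fin k → Fin 2) 0 (1 : ℂ))
    rw [← hC.smul, Matrix.smul_single, smul_eq_mul, mul_one]
  calc cyl hC m 0 * elt hC X * cyl hC m 0
      = cyl hC m 0 * cyl hC k 0 * elt hC X * (cyl hC k 0 * cyl hC m 0) := by
        rw [cyl_mul_of_le hC h, cyl_mul_of_le' hC h]
    _ = cyl hC m 0 * (cyl hC k 0 * elt hC X * cyl hC k 0) * cyl hC m 0 := by
        simp only [mul_assoc]
    _ = _ := by
        rw [e, mul_smul_comm, smul_mul_assoc, cyl_mul_of_le' hC h,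
          (cyl_proj hC _).isIdempotentElem.eq]

theorem inner_delta0 {k : ℕ} (X : Mat k) : ⟪delta0, matOp X delta0⟫_ℂ = X 0 0 := by
  show ⟪Model.δ 0, matOp X (Model.δ 0)⟫_ℂ = _
  rw [Model.inner_δ, Model.matOp_δ]
  exact if_pos fun _ _ => rfl

theorem norm_proj_le {p : Car} (hp : IsStarProjection p) : ‖p‖ ≤ 1 :=
  (hp.map baseRep).norm_le

/-- The state of the iteration. -/
structure St (π : Car →⋆ₐ[ℂ] (K0 →L[ℂ] K0)) where
  /-- The projection. -/
  p : Car
  /-- Its twin. -/
  q : Car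
  /-- The partial isometry between them. -/
  w : Car
  /-- A level whose first cylinder is below the twin. -/
  M : ℕ
  /-- The vector. -/
  ξ : K0
  hp : IsStarProjection p
  hq : IsStarProjection q
  hw : star w * w = p
  hw' : w * star w = q
  hM : q * cyl hC M 0 = cyl hC M 0
  unit : ‖ξ‖ = 1
  fix : π p ξ = ξ

/-- What one step gives. -/
structure Next (π : Car →⋆ₐ[ℂ] (K0 →L[ℂ] K0)) (n : ℕ) (s t : St hC π) (u : Car) : Prop where
  below : s.p * t.p = t.p
  below' : s.q * t.q = t.q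
  link : star u * u = s.p - t.p
  link' : u * star u = s.q - t.q
  near : ‖t.ξ - s.ξ‖ ≤ 2 * (1 / 2) ^ n
  pins : ∀ k ≤ n, ∀ a b : Fin k → Fin 2,
    ‖t.p * elt hC (Matrix.single a b 1) * t.p -
      ⟪s.ξ, π (elt hC (Matrix.single a b 1)) s.ξ⟫_ℂ • t.p‖ ≤ (1 / 2) ^ n
  cyl_below : cyl hC n 0 * t.q = t.q

variable {hC}

theorem exists_next {π : Car →⋆ₐ[ℂ] (K0 →L[ℂ] K0)} (hE : ExciseSpec) (hS : StepSpec hC)
    (hπ : IsIrred π) (n : ℕ) (s : St hC π) : ∃ t u, Next hC π n s t u := by
  classical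
  set m := max s.M n
  obtain ⟨a, ha⟩ : ∃ a, ⟪s.ξ, π (cyl hC m a) s.ξ⟫_ℂ ≠ 0 := by
    by_contra! h
    have h1 : (1 : Car) = ∑ a, cyl hC m a := by
      refine Subtype.ext (ContinuousLinearMap.ext fun f => lp.ext (funext fun j => ?_))
      show f j = baseRep (∑ a, cyl hC m a) f j
      rw [map_sum, sum_apply, lp.coeFn_sum, Finset.sum_apply]
      show f j = ∑ a, (cyl hC m a : K0 →L[ℂ] K0) f j
      simp [cyl_apply]
    have h2 : ⟪s.ξ, π 1 s.ξ⟫_ℂ = 0 := by
      rw [h1, map_sum, sum_apply, inner_sum]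
      exact Finset.sum_eq_zero fun a _ => h a
    rw [map_one, one_apply_eq_self, inner_self_eq_zero] at h2
    have := s.unit
    rw [h2, norm_zero] at this
    exact zero_ne_one this
  set ε := min ‖⟪s.ξ, π (cyl hC m a) s.ξ⟫_ℂ‖ (min (1 / 2) ((1 / 2) ^ n))
  have hε : 0 < ε := lt_min (norm_pos_iff.2 ha) (lt_min (by norm_num) (by positivity))
  obtain ⟨p', hp', hpp', hnear, hpins⟩ := hE π hπ s.p s.hp s.ξ s.unit s.fix
    (insert (cyl hC m a) ((Finset.range (n + 1)).biUnion fun k =>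
      (Finset.univ ×ˢ Finset.univ).image fun ab : (Fin k → Fin 2) × (Fin k → Fin 2) =>
        elt hC (Matrix.single ab.1 ab.2 1))) ε hε
  have hε1 : ε ≤ 1 / 2 := (min_le_right _ _).trans (min_le_left _ _)
  have hε2 : ε ≤ (1 / 2) ^ n := (min_le_right _ _).trans (min_le_right _ _)
  set η := π p' s.ξ
  have habs : |‖η‖ - 1| < ε := by
    have := (abs_norm_sub_norm_le η s.ξ).trans_lt hnear
    rwa [s.unit] at this
  have hη : ‖η‖ ≠ 0 := fun e => by
    rw [e, zero_sub, abs_neg, abs_one] at habs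
    linarith
  have hp0 : p' ≠ 0 := fun e => hη (by simp [η, e])
  have hm : s.q * cyl hC m 0 = cyl hC m 0 := by
    rw [← cyl_mul_of_le hC (le_max_left s.M n), ← mul_assoc, s.hM]
  obtain ⟨q', w', u, M', hq', hqq', hcq', hM', hw', hw'', hu, hu'⟩ :=
    hS s.p s.q s.w p' s.hp s.hq hp' s.hw s.hw' hpp' hp0 m hm a _
      ((hpins _ (Finset.mem_insert_self _ _)).trans_le (min_le_left _ _))
  refine ⟨⟨p', q', w', M', ((‖η‖⁻¹ : ℝ) : ℂ) • η, hp', hq', hw', hw'', hM', ?_, ?_⟩, u,
    hpp', hqq', hu, hu', ?_, fun k hk b b' => ?_, ?_⟩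
  · rw [norm_smul, Complex.norm_real, norm_inv, norm_norm, inv_mul_cancel₀ hη]
  · rw [map_smul, ← mul_apply_eq_comp, ← map_mul, hp'.isIdempotentElem.eq]
  · show ‖((‖η‖⁻¹ : ℝ) : ℂ) • η - s.ξ‖ ≤ _
    have e : ‖((‖η‖⁻¹ : ℝ) : ℂ) • η - η‖ = |‖η‖ - 1| := by
      rw [show ((‖η‖⁻¹ : ℝ) : ℂ) • η - η = ((‖η‖⁻¹ - 1 : ℝ) : ℂ) • η by
        push_cast; rw [sub_smul, one_smul], norm_smul, Complex.norm_real, Real.norm_eq_abs]
      nth_rw 2 [← abs_norm η]
      rw [← abs_mul, sub_mul, inv_mul_cancel₀ hη, one_mul, abs_sub_comm]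
    refine (norm_sub_le_norm_sub_add_norm_sub _ η _).trans ?_
    rw [e]; linarith
  · refine ((hpins _ (Finset.mem_insert_of_mem (Finset.mem_biUnion.2
      ⟨k, Finset.mem_range.2 (by omega), Finset.mem_image.2 ⟨(b, b'), ?_, rfl⟩⟩))).trans_le hε2).le
    exact Finset.mem_product.2 ⟨Finset.mem_univ _, Finset.mem_univ _⟩
  · show cyl hC n 0 * q' = q'
    rw [← hcq', ← mul_assoc, cyl_mul_of_le hC (le_max_right s.M n)]

/-- LINK, from the step. -/
theorem linkModule_of (hS : ∀ hC : CarSpec.{0}, StepSpec hC) : LinkModule := by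
  intro hC hE π hπ
  classical
  have := hπ.1
  obtain ⟨v₀, hv₀⟩ := exists_ne (0 : K0)
  have hunit : ‖((‖v₀‖⁻¹ : ℝ) : ℂ) • v₀‖ = 1 := by
    rw [norm_smul, Complex.norm_real, norm_inv, norm_norm, inv_mul_cancel₀ (norm_ne_zero_iff.2 hv₀)]
  choose f v hf using exists_next (π := π) hE (hS hC) hπ
  let s₀ : St hC π :=
    ⟨1, 1, 1, 0, _, IsStarProjection.one _, IsStarProjection.one _, by simp, by simp,
      one_mul _, hunit, by simp⟩
  let S : ℕ → St hC π := Nat.rec s₀ f
  have hN : ∀ n, Next hC π n (S n) (S (n + 1)) (v n (S n)) := fun n => hf n (S n)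
  have hcs : CauchySeq fun n => (S n).ξ := cauchySeq_of_le_geometric (1 / 2) 2 (by norm_num)
    fun n => by rw [dist_eq_norm, norm_sub_rev]; exact (hN n).near
  obtain ⟨ξ, hξ⟩ := cauchySeq_tendsto_of_complete hcs
  have hmono : ∀ n k, n ≤ k → (S n).p * (S k).p = (S k).p := fun n k h => by
    induction k, h using Nat.le_induction with
    | base => exact (S n).hp.isIdempotentElem.eq
    | succ k _ ih => rw [← (hN k).below, ← mul_assoc, ih]
  have hfix : ∀ n, π (S n).p ξ = ξ := fun n => by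
    refine tendsto_nhds_unique ((π (S n).p).continuous.tendsto ξ |>.comp hξ) (hξ.congr' ?_)
    filter_upwards [eventually_ge_atTop n] with k hk
    conv_lhs => rw [← (S k).fix, ← hmono n k hk, map_mul, mul_apply_eq_comp, (S k).fix]
    rfl
  refine ⟨ξ, fun n => (S n).p, fun n => (S n).q, fun n => v n (S n), ?_, ?_,
    fun n => ⟨(hN n).link, (hN n).link'⟩⟩
  · refine ⟨tendsto_nhds_unique hξ.norm (tendsto_const_nhds.congr fun n => ((S n).unit).symm),
      rfl, fun n => (S n).hp, fun n => (hN n).below, hfix, fun x => ?_⟩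
    obtain ⟨k, X, hX⟩ := hC.exhaust x
    obtain rfl : x = elt hC X := Subtype.ext hX.symm
    rw [← tendsto_add_atTop_iff_nat 1]
    set c : ℕ → ℂ := fun n => ⟪(S n).ξ, π (elt hC X) (S n).ξ⟫_ℂ
    have hc : Tendsto (fun n => ‖c n - ⟪ξ, π (elt hC X) ξ⟫_ℂ‖) atTop (𝓝 0) :=
      tendsto_iff_norm_sub_tendsto_zero.1
        (hξ.inner (((π (elt hC X)).continuous.tendsto ξ).comp hξ))
    have hpow : Tendsto (fun n : ℕ => (∑ a, ∑ b, ‖X a b‖) * (1 / 2) ^ n) atTop (𝓝 0) := by
      simpa using (tendsto_pow_atTop_nhds_zero_of_lt_one (r := (1 / 2 : ℝ)) (by norm_num)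
        (by norm_num)).const_mul (∑ a, ∑ b, ‖X a b‖)
    have hb := hpow.add hc
    rw [zero_add] at hb
    refine squeeze_zero' (Eventually.of_forall fun n => norm_nonneg _) ?_ hb
    filter_upwards [eventually_ge_atTop k] with n hn
    refine (norm_sub_le_norm_sub_add_norm_sub _ (c n • (S (n + 1)).p) _).trans (add_le_add ?_ ?_)
    · have e : (S (n + 1)).p * elt hC X * (S (n + 1)).p - c n • (S (n + 1)).p =
          ∑ a, ∑ b, X a b • ((S (n + 1)).p * elt hC (Matrix.single a b 1) * (S (n + 1)).p -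
            ⟪(S n).ξ, π (elt hC (Matrix.single a b 1)) (S n).ξ⟫_ℂ • (S (n + 1)).p) := by
        simp only [c]
        conv_lhs => rw [elt_eq_sum hC X]
        simp only [Finset.mul_sum, Finset.sum_mul, mul_smul_comm, smul_mul_assoc, map_sum,
          map_smul, sum_apply, smul_apply, inner_sum, inner_smul_right, Finset.sum_smul,
          smul_sub, smul_smul, Finset.sum_sub_distrib]
      rw [e, Finset.sum_mul]
      refine (norm_sum_le _ _).trans (Finset.sum_le_sum fun a _ => ?_)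
      rw [Finset.sum_mul]
      refine (norm_sum_le _ _).trans (Finset.sum_le_sum fun b _ => ?_)
      rw [norm_smul]
      exact mul_le_mul_of_nonneg_left ((hN n).pins k hn a b) (norm_nonneg _)
    · rw [← sub_smul, norm_smul]
      exact mul_le_of_le_one_right (norm_nonneg _) (norm_proj_le (S (n + 1)).hp)
  · refine ⟨by simp [delta0, lp.norm_single], rfl, fun n => (S n).hq, fun n => (hN n).below',
      fun n => ?_, fun x => ?_⟩
    · show ((S n).q : K0 →L[ℂ] K0) delta0 = delta0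
      conv_lhs => rw [← cyl_delta0 hC (S n).M, ← mul_apply_eq_comp, ← MulMemClass.coe_mul,
        (S n).hM]
      exact cyl_delta0 hC (S n).M
    · obtain ⟨k, X, hX⟩ := hC.exhaust x
      obtain rfl : x = elt hC X := Subtype.ext hX.symm
      rw [← tendsto_add_atTop_iff_nat 1]
      refine tendsto_const_nhds.congr' ?_
      filter_upwards [eventually_ge_atTop k] with n hn
      set q := (S (n + 1)).q
      have h1 : cyl hC n 0 * q = q := (hN n).cyl_below
      have h2 : q * cyl hC n 0 = q := by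
        have := congrArg star h1
        rwa [star_mul, (cyl_proj hC _).isSelfAdjoint.star_eq,
          (S (n + 1)).hq.isSelfAdjoint.star_eq] at this
      have e : q * elt hC X * q = X 0 0 • q := by
        calc q * elt hC X * q = q * cyl hC n 0 * elt hC X * (cyl hC n 0 * q) := by rw [h1, h2]
          _ = q * (cyl hC n 0 * elt hC X * cyl hC n 0) * q := by simp only [mul_assoc]
          _ = X 0 0 • q := by
            rw [cyl_elt_cyl hC hn, mul_smul_comm, smul_mul_assoc, h2,
              (S (n + 1)).hq.isIdempotentElem.eq]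
      rw [e, show ⟪delta0, (baseRep (elt hC X)) delta0⟫_ℂ = X 0 0 from inner_delta0 X, sub_self,
        norm_zero]

end Vale.Agent.P070.Link
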