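import Vale.Agent.P070.Spec

/-!
P070: the answer in Mathlib notions only, with non-unital representations.
-/

open scoped InnerProductSpace

namespace Vale.Agent.P070

universe u v w

/-- The image of the unit is the identity in an irreducible representation. -/
theorem map_one_eq_one {A : Type} [CStarAlgebra A] {H : Type u} [NormedAddCommGroup H]
    [InnerProductSpace ℂ H] [CompleteSpace H] (π : A →⋆ₙₐ[ℂ] (H →L[ℂ] H)) (h0 : π ≠ 0)
    (hirr : ∀ V : Submodule ℂ H, IsClosed (V : Set H) → (∀ a, ∀ h ∈ V, π a h ∈ V) →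
      V = ⊥ ∨ V = ⊤) : π 1 = 1 := by
  let V : Submodule ℂ H :=
    { carrier := {h | π 1 h = h}
      add_mem' := fun {a b} ha hb => by
        simp only [Set.mem_ofPred_eq] at ha hb ⊢
        rw [map_add, ha, hb]
      zero_mem' := by simp
      smul_mem' := fun c a ha => by
        simp only [Set.mem_ofPred_eq] at ha ⊢
        rw [map_smul, ha] }
  have hV : ∀ a h, π a h ∈ V := fun a h => by
    show π 1 (π a h) = π a h
    rw [← mul_apply_eq_comp, ← map_mul, one_mul]
  rcases hirr V (isClosed_eq (π 1).continuous continuous_id) (fun a h _ => hV a h) with h | h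
  · refine absurd ?_ h0
    refine NonUnitalStarAlgHom.ext fun a => ContinuousLinearMap.ext fun x => ?_
    have := hV a x
    rw [h, Submodule.mem_bot] at this
    simpa using this
  · refine ContinuousLinearMap.ext fun x => ?_
    have : x ∈ V := by rw [h]; trivial
    simpa using (show π 1 x = x from this)

/-- An irreducible non-unital representation of a unital algebra as a unital one. -/
theorem exists_unital {A : Type} [CStarAlgebra A] {H : Type u} [NormedAddCommGroup H]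
    [InnerProductSpace ℂ H] [CompleteSpace H] (π : A →⋆ₙₐ[ℂ] (H →L[ℂ] H)) (h0 : π ≠ 0)
    (hirr : ∀ V : Submodule ℂ H, IsClosed (V : Set H) → (∀ a, ∀ h ∈ V, π a h ∈ V) →
      V = ⊥ ∨ V = ⊤) :
    ∃ σ : A →⋆ₐ[ℂ] (H →L[ℂ] H), (∀ a, σ a = π a) ∧ IsIrred σ := by
  have h1 := map_one_eq_one π h0 hirr
  let σ : A →⋆ₐ[ℂ] (H →L[ℂ] H) :=
    { toFun := π
      map_one' := h1
      map_mul' := map_mul π
      map_zero' := map_zero π
      map_add' := map_add π
      commutes' := fun r => by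
        rw [Algebra.algebraMap_eq_smul_one, map_smul, h1, Algebra.algebraMap_eq_smul_one]
      map_star' := map_star π }
  refine ⟨σ, fun a => rfl, ?_, hirr⟩
  by_contra hn
  rw [not_nontrivial_iff_subsingleton] at hn
  exact h0 (NonUnitalStarAlgHom.ext fun a => ContinuousLinearMap.ext fun x =>
    Subsingleton.elim _ _)

/-- The answer to Naimark's question read literally: a C*-algebra with a nonzero irreducible
representation, any two such representations unitarily equivalent, and not isomorphic to the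
compact operators on any Hilbert space. -/
theorem literal_of_target (hT : Target.{u, v, w}) :
    ∃ (A : Type) (_ : CStarAlgebra A),
      (∃ (H : Type) (_ : NormedAddCommGroup H) (_ : InnerProductSpace ℂ H) (_ : CompleteSpace H)
        (π : A →⋆ₙₐ[ℂ] (H →L[ℂ] H)), π ≠ 0 ∧
          ∀ V : Submodule ℂ H, IsClosed (V : Set H) → (∀ a, ∀ h ∈ V, π a h ∈ V) →
            V = ⊥ ∨ V = ⊤) ∧
      (∀ (H₁ : Type u) [NormedAddCommGroup H₁] [InnerProductSpace ℂ H₁] [CompleteSpace H₁]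
        (H₂ : Type v) [NormedAddCommGroup H₂] [InnerProductSpace ℂ H₂] [CompleteSpace H₂]
        (π : A →⋆ₙₐ[ℂ] (H₁ →L[ℂ] H₁)) (σ : A →⋆ₙₐ[ℂ] (H₂ →L[ℂ] H₂)),
        π ≠ 0 →
        (∀ V : Submodule ℂ H₁, IsClosed (V : Set H₁) → (∀ a, ∀ h ∈ V, π a h ∈ V) →
          V = ⊥ ∨ V = ⊤) →
        σ ≠ 0 →
        (∀ V : Submodule ℂ H₂, IsClosed (V : Set H₂) → (∀ a, ∀ h ∈ V, σ a h ∈ V) →
          V = ⊥ ∨ V = ⊤) →
        ∃ U : H₁ ≃ₗᵢ[ℂ] H₂, ∀ a h, U (π a h) = σ a (U h)) ∧
      ∀ (H : Type w) [NormedAddCommGroup H] [InnerProductSpace ℂ H] [CompleteSpace H]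
        (φ : A →⋆ₙₐ[ℂ] (H →L[ℂ] H)), Function.Injective φ →
          Set.range φ ≠ {T : H →L[ℂ] H | IsCompactOperator T} := by
  obtain ⟨A, iA, H₀, i1, i2, i3, π₀, ⟨hnt, hirr₀⟩, hu, hv, hw⟩ := hT
  refine ⟨A, iA, ⟨H₀, i1, i2, i3, π₀.toNonUnitalStarAlgHom, ?_, hirr₀⟩, ?_, hw⟩
  · intro h
    obtain ⟨x, hx⟩ := exists_ne (0 : H₀)
    refine hx ?_
    have h2 : π₀ 1 = 0 := DFunLike.congr_fun h 1
    rw [map_one] at h2
    simpa using congrArg (fun T : H₀ →L[ℂ] H₀ => T x) h2
  · intro H₁ _ _ _ H₂ _ _ _ π σ hπ hπ' hσ hσ'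
    obtain ⟨π', e1, k1⟩ := exists_unital π hπ hπ'
    obtain ⟨σ', e2, k2⟩ := exists_unital σ hσ hσ'
    obtain ⟨U₁, hU₁⟩ := hu H₁ π' k1
    obtain ⟨U₂, hU₂⟩ := hv H₂ σ' k2
    refine ⟨U₁.symm.trans U₂, fun a h => ?_⟩
    have h3 : U₁.symm (π a h) = π₀ a (U₁.symm h) :=
      U₁.injective (by rw [U₁.apply_symm_apply, hU₁, U₁.apply_symm_apply, e1])
    simp only [LinearIsometryEquiv.trans_apply]
    rw [h3, hU₂, e2]

end Vale.Agent.P070
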