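import Vale.Agent.P070.Spec

/-!
P070: the levels of the algebra on binary sequences and its irreducibility.
-/

open Filter Topology
open scoped InnerProductSpace Matrix Matrix.Norms.L2Operator

namespace Vale.Agent.P070

universe u

namespace Model

variable {m n : ℕ}

theorem head_apply (j : Bits) (i : Fin m) : head m j i = j i := rfl

theorem fill_apply_lt (d : Fin m → Fin 2) {k : ℕ} (hk : k < m) : fill d k = d ⟨k, hk⟩ := by
  rw [fill]
  exact Finsupp.embDomain_apply_self Fin.valEmbedding _ ⟨k, hk⟩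

theorem fill_apply_le (d : Fin m → Fin 2) {k : ℕ} (hk : m ≤ k) : fill d k = 0 := by
  rw [fill]
  exact Finsupp.embDomain_of_notMem_range _ _ _ fun ⟨i, hi⟩ => not_lt.2 hk (hi ▸ i.2)

theorem head_fill (d : Fin m → Fin 2) : head m (fill d) = d :=
  funext fun i => fill_apply_lt d i.2

/-- The sequence with the bits below `m` replaced. -/
noncomputable def put (j : Bits) (e : Fin m → Fin 2) : Bits := j + fill (e - head m j)

theorem put_lt (j : Bits) (e : Fin m → Fin 2) {k : ℕ} (hk : k < m) : put j e k = e ⟨k, hk⟩ := by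
  simp [put, fill_apply_lt _ hk, head_apply]

theorem put_le (j : Bits) (e : Fin m → Fin 2) {k : ℕ} (hk : m ≤ k) : put j e k = j k := by
  simp [put, fill_apply_le _ hk]

theorem head_put (j : Bits) (e : Fin m → Fin 2) : head m (put j e) = e :=
  funext fun i => put_lt j e i.2

theorem put_put (j : Bits) (e e' : Fin m → Fin 2) : put (put j e) e' = put j e' := by
  refine Finsupp.ext fun k => ?_
  rcases lt_or_ge k m with hk | hk
  · rw [put_lt _ _ hk, put_lt _ _ hk]
  · rw [put_le _ _ hk, put_le _ _ hk, put_le _ _ hk]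

/-- Equal bits from `m` on. -/
def SameTail (m : ℕ) (i j : Bits) : Prop := ∀ k, m ≤ k → i k = j k

theorem put_eq_iff (i j : Bits) (e : Fin m → Fin 2) :
    put i e = j ↔ e = head m j ∧ SameTail m i j := by
  constructor
  · rintro rfl
    exact ⟨(head_put i e).symm, fun k hk => (put_le i e hk).symm⟩
  · rintro ⟨rfl, h⟩
    refine Finsupp.ext fun k => ?_
    rcases lt_or_ge k m with hk | hk
    · rw [put_lt _ _ hk, head_apply]
    · rw [put_le _ _ hk, h k hk]

theorem shiftOp_apply (d : Bits) (f : K0) (j : Bits) : shiftOp d f j = f (j + d) := rfl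

theorem diagOp_apply (c : Bits → ℂ) {r : ℝ} (hr : 0 ≤ r) (hc : ∀ j, ‖c j‖ ≤ r) (f : K0)
    (j : Bits) : diagOp c r hr hc f j = c j * f j := rfl

theorem matOp_apply (X : Mat m) (f : K0) (j : Bits) :
    matOp X f j = ∑ e, X (head m j) e * f (put j e) := by
  rw [matOp, sum_apply, lp.coeFn_sum, Finset.sum_apply]
  simp only [mul_apply_eq_comp, diagOp_apply, shiftOp_apply]
  rw [← Equiv.sum_comp (Equiv.addLeft (head m j)) fun e => X (head m j) e * f (put j e)]
  simp [put]

theorem matOp_mul (X Y : Mat m) : matOp (X * Y) = matOp X * matOp Y := by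
  refine ContinuousLinearMap.ext fun f => lp.ext (funext fun j => ?_)
  simp only [mul_apply_eq_comp, matOp_apply, head_put, put_put, Matrix.mul_apply, Finset.sum_mul,
    Finset.mul_sum, mul_assoc]
  exact Finset.sum_comm

theorem matOp_add (X Y : Mat m) : matOp (X + Y) = matOp X + matOp Y := by
  refine ContinuousLinearMap.ext fun f => lp.ext (funext fun j => ?_)
  simp [matOp_apply, add_mul, Finset.sum_add_distrib]

theorem matOp_smul (c : ℂ) (X : Mat m) : matOp (c • X) = c • matOp X := by
  refine ContinuousLinearMap.ext fun f => lp.ext (funext fun j => ?_)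
  simp [matOp_apply, Finset.mul_sum, mul_assoc]

/-- The basis vectors. -/
noncomputable def δ (j : Bits) : K0 := lp.single 2 j 1

theorem δ_apply (j i : Bits) : δ j i = if i = j then 1 else 0 := by
  rcases eq_or_ne i j with rfl | h
  · rw [δ, lp.single_apply_self, if_pos rfl]
  · rw [δ, lp.single_apply_ne _ _ _ h, if_neg h]

theorem inner_δ (j : Bits) (f : K0) : ⟪δ j, f⟫_ℂ = f j := by
  rw [δ, lp.inner_single_left]
  simp

theorem single_eq_smul (j : Bits) (z : ℂ) : (lp.single 2 j z : K0) = z • δ j := by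
  rw [δ, ← lp.single_smul, smul_eq_mul, mul_one]

theorem ext_δ {S T : K0 →L[ℂ] K0} (h : ∀ j i, S (δ j) i = T (δ j) i) : S = T := by
  refine ContinuousLinearMap.ext fun f => ?_
  have hs := lp.hasSum_single (p := 2) (by simp) f
  have e : ∀ j, S (lp.single 2 j (f j)) = T (lp.single 2 j (f j)) := fun j => by
    rw [single_eq_smul, map_smul, map_smul, show S (δ j) = T (δ j) from lp.ext (funext (h j))]
  exact ((hs.mapL S).congr_fun fun j => (e j).symm).unique (hs.mapL T)

open scoped Classical in
theorem matOp_δ (X : Mat m) (i j : Bits) :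
    matOp X (δ j) i = if SameTail m i j then X (head m i) (head m j) else 0 := by
  simp only [matOp_apply, δ_apply, put_eq_iff, mul_ite, mul_one, mul_zero, ite_and]
  simp

theorem matOp_one : matOp (1 : Mat m) = 1 := by
  refine ContinuousLinearMap.ext fun f => lp.ext (funext fun j => ?_)
  simp [matOp_apply, Matrix.one_apply,
    show put j (head m j) = j from (put_eq_iff _ _ _).2 ⟨rfl, fun _ _ => rfl⟩]

theorem star_apply_δ (T : K0 →L[ℂ] K0) (i j : Bits) :
    star T (δ j) i = starRingEnd ℂ (T (δ i) j) := by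
  rw [← inner_δ i, ContinuousLinearMap.star_eq_adjoint,
    ContinuousLinearMap.adjoint_inner_right, ← inner_conj_symm, inner_δ]

theorem matOp_adj (X : Mat m) : matOp Xᴴ = star (matOp X) := by
  refine ext_δ fun j i => ?_
  rw [star_apply_δ, matOp_δ, matOp_δ]
  by_cases h : SameTail m i j
  · have h' : SameTail m j i := fun k hk => (h k hk).symm
    rw [if_pos h, if_pos h']
    rfl
  · have h' : ¬ SameTail m j i := fun h' => h fun k hk => (h' k hk).symm
    rw [if_neg h, if_neg h', map_zero]

theorem matOp_injective : Function.Injective (matOp (m := m)) := fun X Y h => by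
  ext a b
  have h1 : SameTail m (fill a) (fill b) := fun k hk => by
    rw [fill_apply_le _ hk, fill_apply_le _ hk]
  have h2 := congrArg (fun T : K0 →L[ℂ] K0 => T (δ (fill b)) (fill a)) h
  simpa [matOp_δ, h1, head_fill] using h2

theorem matOp_mono (hmn : m ≤ n) (X : Mat m) : ∃ Y : Mat n, matOp Y = matOp X := by
  classical
  refine ⟨Matrix.of fun a b => if ∀ k : Fin n, m ≤ (k : ℕ) → a k = b k then
    X (fun i => a (i.castLE hmn)) (fun i => b (i.castLE hmn)) else 0, ext_δ fun j i => ?_⟩
  rw [matOp_δ, matOp_δ]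
  simp only [Matrix.of_apply]
  by_cases h : SameTail m i j
  · have h1 : SameTail n i j := fun k hk => h k (hmn.trans hk)
    have h2 : ∀ k : Fin n, m ≤ (k : ℕ) → head n i k = head n j k := fun k hk => h k hk
    rw [if_pos h, if_pos h1, if_pos h2]
    rfl
  · rw [if_neg h]
    by_cases h1 : SameTail n i j
    · have h2 : ¬ ∀ k : Fin n, m ≤ (k : ℕ) → head n i k = head n j k := fun h2 => h fun k hk => by
        rcases lt_or_ge k n with hkn | hkn
        exacts [h2 ⟨k, hkn⟩ hk, h1 k hkn]
      rw [if_pos h1, if_neg h2]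
    · rw [if_neg h1]

theorem level_mem (X : Mat m) : matOp X ∈ car :=
  StarAlgebra.subset_adjoin ℂ _ ⟨m, X, rfl⟩

theorem exists_level {T : K0 →L[ℂ] K0} (hT : T ∈ car) : ∃ (k : ℕ) (X : Mat k), matOp X = T := by
  induction hT using StarAlgebra.adjoin_induction with
  | mem x hx => exact hx
  | algebraMap r =>
    exact ⟨0, r • 1, by rw [matOp_smul, matOp_one, Algebra.algebraMap_eq_smul_one]⟩
  | add x y _ _ hx hy =>
    obtain ⟨a, X, rfl⟩ := hx
    obtain ⟨b, Y, rfl⟩ := hy
    obtain ⟨X', hX⟩ := matOp_mono (le_max_left a b) X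
    obtain ⟨Y', hY⟩ := matOp_mono (le_max_right a b) Y
    exact ⟨_, X' + Y', by rw [matOp_add, hX, hY]⟩
  | mul x y _ _ hx hy =>
    obtain ⟨a, X, rfl⟩ := hx
    obtain ⟨b, Y, rfl⟩ := hy
    obtain ⟨X', hX⟩ := matOp_mono (le_max_left a b) X
    obtain ⟨Y', hY⟩ := matOp_mono (le_max_right a b) Y
    exact ⟨_, X' * Y', by rw [matOp_mul, hX, hY]⟩
  | star x _ hx =>
    obtain ⟨a, X, rfl⟩ := hx
    exact ⟨a, Xᴴ, matOp_adj X⟩

theorem matOp_zero : matOp (0 : Mat m) = 0 := by
  simpa using matOp_smul (0 : ℂ) (0 : Mat m)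

/-- A level as a star algebra map into the bounded operators. -/
noncomputable def level (m : ℕ) : Mat m →⋆ₐ[ℂ] (K0 →L[ℂ] K0) where
  toFun := matOp
  map_one' := matOp_one
  map_mul' := matOp_mul
  map_zero' := matOp_zero
  map_add' := matOp_add
  commutes' r := by
    rw [Algebra.algebraMap_eq_smul_one, matOp_smul, matOp_one, ← Algebra.algebraMap_eq_smul_one]
  map_star' := matOp_adj

/-- A level inside the algebra. -/
noncomputable def levelCar (m : ℕ) : Mat m →⋆ₐ[ℂ] Car :=
  (level m).codRestrict car level_mem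

theorem norm_rep_le {H : Type u} [NormedAddCommGroup H] [InnerProductSpace ℂ H] [CompleteSpace H]
    (π : Car →⋆ₐ[ℂ] (H →L[ℂ] H)) (x : Car) : ‖π x‖ ≤ ‖x‖ := by
  obtain ⟨k, X, hX⟩ := exists_level x.2
  have hx : levelCar k X = x := Subtype.ext hX
  have h1 : ‖π x‖ ≤ ‖X‖ := by
    rw [← hx]
    exact NonUnitalStarAlgHom.norm_apply_le (π.comp (levelCar k)) X
  have h2 : ‖(x : K0 →L[ℂ] K0)‖ = ‖X‖ := by
    rw [← hX]
    exact NonUnitalStarAlgHom.norm_map (level k) matOp_injective X
  exact h1.trans_eq h2.symm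

theorem exists_bound (s : Finset Bits) : ∃ M, ∀ m, M ≤ m → ∀ i ∈ s, ∀ k, m ≤ k → i k = 0 := by
  refine ⟨(s.sup fun i => i.support.sup fun k => k + 1), fun m hm i hi k hk => ?_⟩
  by_contra hne
  have h1 : k + 1 ≤ i.support.sup fun k => k + 1 :=
    Finset.le_sup (f := fun k => k + 1) (Finsupp.mem_support_iff.2 hne)
  have h2 := Finset.le_sup (f := fun i : Bits => i.support.sup fun k => k + 1) hi
  omega

theorem head_inj {i j : Bits} (hi : ∀ k, m ≤ k → i k = 0) (hj : ∀ k, m ≤ k → j k = 0)
    (h : head m i = head m j) : i = j := Finsupp.ext fun k => by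
  rcases lt_or_ge k m with hk | hk
  exacts [congrFun h ⟨k, hk⟩, (hi k hk).trans (hj k hk).symm]

theorem matOp_single_δ {i j : Bits} (hi : ∀ k, m ≤ k → i k = 0) (hj : ∀ k, m ≤ k → j k = 0) :
    matOp (Matrix.single (head m i) (head m j) (1 : ℂ)) (δ j) = δ i := by
  refine lp.ext (funext fun k => ?_)
  rw [matOp_δ, δ_apply]
  by_cases h : SameTail m k j
  · have hk : ∀ l, m ≤ l → k l = 0 := fun l hl => (h l hl).trans (hj l hl)
    rw [if_pos h, Matrix.single_apply]
    refine if_congr ⟨fun e => head_inj hk hi e.1.symm, fun e => ⟨?_, rfl⟩⟩ rfl rfl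
    rw [e]
  · rw [if_neg h, if_neg fun e => h fun l hl => ?_]
    rw [e, hi l hl, hj l hl]

theorem base_irred : IsIrred baseRep := by
  refine ⟨⟨⟨δ 0, 0, fun h => ?_⟩⟩, fun V hV hinv => ?_⟩
  · have h' := congrArg (fun f : K0 => f 0) h
    simp [δ_apply] at h'
  have hmat : ∀ (m : ℕ) (X : Mat m), ∀ h ∈ V, matOp X h ∈ V := fun m X h hh =>
    hinv ⟨matOp X, level_mem X⟩ h hh
  rw [or_iff_not_imp_left]
  intro hne
  obtain ⟨v, hv, hv0⟩ := (Submodule.ne_bot_iff V).1 hne
  obtain ⟨j0, hj0⟩ : ∃ j, v j ≠ 0 := by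
    by_contra! h
    exact hv0 (lp.ext (funext h))
  -- the projections on the cylinders around `j0` shrink `v` to its component there
  have hδ : (lp.single 2 j0 (v j0) : K0) ∈ V := by
    rw [← SetLike.mem_coe, ← hV.closure_eq, Metric.mem_closure_iff]
    intro ε hε
    obtain ⟨s, hs⟩ := Metric.tendsto_atTop.1 (lp.hasSum_single (p := 2) (by simp) v) ε hε
    have hdist := hs (insert j0 s) (Finset.subset_insert _ _)
    set t := insert j0 s
    obtain ⟨m, hM⟩ := exists_bound t
    set e := head m j0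
    set X : Mat m := Matrix.single e e 1
    refine ⟨matOp X v, hmat m X v hv, ?_⟩
    have hsum : matOp X (∑ j ∈ t, lp.single 2 j (v j)) = lp.single 2 j0 (v j0) := by
      rw [map_sum, Finset.sum_eq_single j0]
      · rw [single_eq_smul, map_smul,
          matOp_single_δ (hM m le_rfl j0 (Finset.mem_insert_self _ _))
            (hM m le_rfl j0 (Finset.mem_insert_self _ _))]
      · intro j hj hne'
        have hjz := hM m le_rfl j hj
        have hh : e ≠ head m j := fun h' =>
          hne' (head_inj hjz (hM m le_rfl j0 (Finset.mem_insert_self _ _)) h'.symm)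
        rw [single_eq_smul, map_smul, show matOp X (δ j) = 0 from lp.ext (funext fun i => by
          simp [matOp_δ, X, hh]), smul_zero]
      · exact fun h => absurd (Finset.mem_insert_self _ _) h
    have hP : IsStarProjection (matOp X) :=
      ⟨(matOp_mul X X).symm.trans (by simp [X]),
        (matOp_adj X).symm.trans (by simp [X])⟩
    rw [← hsum, dist_eq_norm, ← map_sub]
    refine ((matOp X).le_opNorm _).trans_lt ?_
    calc ‖matOp X‖ * ‖∑ j ∈ t, lp.single 2 j (v j) - v‖
        ≤ 1 * ‖∑ j ∈ t, lp.single 2 j (v j) - v‖ :=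
          mul_le_mul_of_nonneg_right hP.norm_le (norm_nonneg _)
      _ < ε := by rwa [one_mul, ← dist_eq_norm]
  rw [single_eq_smul, Submodule.smul_mem_iff _ hj0] at hδ
  have hall : ∀ i, δ i ∈ V := fun i => by
    obtain ⟨m, hM⟩ := exists_bound {i, j0}
    rw [← matOp_single_δ (hM m le_rfl i (by simp)) (hM m le_rfl j0 (by simp))]
    exact hmat m _ _ hδ
  rw [eq_top_iff]
  intro f _
  exact hV.mem_of_tendsto (lp.hasSum_single (p := 2) (by simp) f) (Eventually.of_forall fun s =>
    sum_mem fun i _ => by rw [single_eq_smul]; exact V.smul_mem _ (hall i))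

end Model

open Model in
/-- The structure of the union of the matrix algebras. -/
theorem carSpec : CarSpec.{u} where
  level_mem _ := level_mem
  one _ := matOp_one
  mul _ := matOp_mul
  add _ := matOp_add
  smul _ := matOp_smul
  adj _ := matOp_adj
  inj _ := matOp_injective
  mono _ _ h := matOp_mono h
  exhaust x := exists_level x.2
  norm_le _ := norm_rep_le
  base := base_irred

end Vale.Agent.P070
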