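import Vale.Agent.P070.Spec

/-!
P070: an infinite-dimensional unital C*-algebra is not the algebra of compact operators: the image
of the unit would be a compact identity.
-/

namespace Vale.Agent.P070

universe v

/-- NOTCOMPACT. -/
theorem notCompactSpec : NotCompactSpec.{v} := by
  intro A _ hA H _ _ _ φ hφ he
  have hT : ∀ u : H, IsCompactOperator
      ((ContinuousLinearMap.toSpanSingleton ℂ u).comp (innerSL ℂ u)) := fun u =>
    ((isCompactOperator_id (E := ℂ)).comp_clm (innerSL ℂ u)).clm_comp
      (ContinuousLinearMap.toSpanSingleton ℂ u)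
  have hone : φ 1 = 1 := by
    refine ContinuousLinearMap.ext fun u => ?_
    rcases eq_or_ne u 0 with rfl | hu
    · simp
    obtain ⟨a, ha⟩ : ((ContinuousLinearMap.toSpanSingleton ℂ u).comp (innerSL ℂ u)) ∈
        Set.range φ := by rw [he]; exact hT u
    have h := congrArg (fun T : H →L[ℂ] H => T u) (map_mul φ 1 a)
    simpa [one_mul, ha, map_smul, hu] using h.symm
  have hc : IsCompactOperator (φ 1 : H →L[ℂ] H) := by
    have h : φ 1 ∈ Set.range φ := ⟨1, rfl⟩
    rwa [he] at h
  have : LocallyCompactSpace H := isCompactOperator_id_iff_locallyCompactSpace.1 (by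
    simpa [hone] using hc)
  have := FiniteDimensional.of_locallyCompactSpace ℂ (E := H)
  let L : A →ₗ[ℂ] (H →L[ℂ] H) :=
    { toFun := φ, map_add' := map_add φ, map_smul' := map_smul φ }
  exact hA (FiniteDimensional.of_injective L hφ)

end Vale.Agent.P070
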