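import Vale.Agent.P070.Spec

/-!
P070: flags in representations of the union of the matrix algebras, and intertwining isometries.
-/

open Filter Topology
open scoped InnerProductSpace

namespace Vale.Agent.P070

universe u v

variable {H : Type u} [NormedAddCommGroup H] [InnerProductSpace ℂ H] [CompleteSpace H]
  {K : Type v} [NormedAddCommGroup K] [InnerProductSpace ℂ K] [CompleteSpace K]

theorem inner_proj {e : H →L[ℂ] H} (he : IsStarProjection e) (a b : H) :
    ⟪a, e b⟫_ℂ = ⟪e a, b⟫_ℂ := by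
  conv_rhs => rw [← he.isSelfAdjoint.star_eq, ContinuousLinearMap.star_eq_adjoint,
    ContinuousLinearMap.adjoint_inner_left]

theorem norm_proj_sq {e : H →L[ℂ] H} (he : IsStarProjection e) (a : H) :
    ‖e a‖ ^ 2 = (⟪a, e a⟫_ℂ).re := by
  have h : e (e a) = e a := DFunLike.congr_fun he.isIdempotentElem.eq a
  rw [← inner_self_eq_norm_sq (𝕜 := ℂ), RCLike.re_to_complex, ← inner_proj he, h]

/-- A projection that keeps the expectation of a vector fixes it. -/
theorem proj_fix {e : H →L[ℂ] H} (he : IsStarProjection e) {a : H}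
    (h : ⟪a, e a⟫_ℂ = ⟪a, a⟫_ℂ) : e a = a := by
  have h2 : ⟪e a, a⟫_ℂ = ⟪a, a⟫_ℂ := by rw [← inner_proj he]; exact h
  have h3 : ⟪e a, e a⟫_ℂ = ⟪a, a⟫_ℂ := by
    rw [← inner_proj he, ← mul_apply_eq_comp, he.isIdempotentElem.eq, h]
  rw [← sub_eq_zero, ← inner_self_eq_zero (𝕜 := ℂ), inner_sub_left, inner_sub_right,
    inner_sub_right, h3, h2, h]
  simp

theorem inner_rep (π : Car →⋆ₐ[ℂ] (H →L[ℂ] H)) (x y : Car) (a b : H) :
    ⟪π x a, π y b⟫_ℂ = ⟪a, π (star x * y) b⟫_ℂ := by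
  rw [map_mul, map_star, mul_apply_eq_comp, ContinuousLinearMap.star_eq_adjoint,
    ContinuousLinearMap.adjoint_inner_right]

theorem norm_rep_sq (π : Car →⋆ₐ[ℂ] (H →L[ℂ] H)) (x : Car) (a : H) :
    ‖π x a‖ ^ 2 = (⟪a, π (star x * x) a⟫_ℂ).re := by
  rw [← inner_rep, ← RCLike.re_to_complex, inner_self_eq_norm_sq]

section Flag

variable {π₀ : Car →⋆ₐ[ℂ] (H →L[ℂ] H)} {ξ₀ : H} {p : ℕ → Car}

theorem IsFlag.mul_of_le (hf : IsFlag π₀ ξ₀ p) {m n : ℕ} (h : m ≤ n) : p m * p n = p n := by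
  induction n, h using Nat.le_induction with
  | base => exact (hf.proj m).isIdempotentElem.eq
  | succ n _ ih => rw [← hf.below n, ← mul_assoc, ih]

theorem IsFlag.mul_of_le' (hf : IsFlag π₀ ξ₀ p) {m n : ℕ} (h : m ≤ n) : p n * p m = p n := by
  have := congrArg star (hf.mul_of_le h)
  rwa [star_mul, (hf.proj m).isSelfAdjoint.star_eq, (hf.proj n).isSelfAdjoint.star_eq] at this

/-- In every representation the projections of a flag converge strongly, to fixed vectors. -/
theorem IsFlag.exists_limit (hf : IsFlag π₀ ξ₀ p) (π : Car →⋆ₐ[ℂ] (K →L[ℂ] K)) (a : K) :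
    ∃ L, Tendsto (fun n => π (p n) a) atTop (𝓝 L) ∧ ∀ n, π (p n) L = L := by
  have hP : ∀ n, IsStarProjection (π (p n)) := fun n => (hf.proj n).map π
  set c : ℕ → ℝ := fun n => ‖π (p n) a‖ ^ 2
  have key : ∀ m n, m ≤ n → ‖π (p n) a - π (p m) a‖ ^ 2 = c m - c n := fun m n h => by
    have e1 : ⟪π (p n) a, π (p m) a⟫_ℂ = ⟪a, π (p n) a⟫_ℂ := by
      rw [inner_rep, (hf.proj n).isSelfAdjoint.star_eq, hf.mul_of_le' h]
    rw [norm_sub_sq (𝕜 := ℂ), e1, RCLike.re_to_complex, ← norm_proj_sq (hP n)]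
    ring
  have hc : Antitone c := fun m n h => by linarith [key m n h, sq_nonneg ‖π (p n) a - π (p m) a‖]
  have hb : BddBelow (Set.range c) := ⟨0, by rintro _ ⟨n, rfl⟩; positivity⟩
  have hlim := tendsto_atTop_ciInf hc hb
  have hcs : CauchySeq fun n => π (p n) a := by
    rw [Metric.cauchySeq_iff']
    intro ε hε
    obtain ⟨N, hN⟩ := Metric.tendsto_atTop.1 hlim (ε ^ 2 / 2) (by positivity)
    refine ⟨N, fun n hn => ?_⟩
    have h1 := hN N le_rfl
    have h2 := hN n hn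
    rw [Real.dist_eq, abs_lt] at h1 h2
    rw [dist_eq_norm]
    exact lt_of_pow_lt_pow_left₀ 2 hε.le (by rw [key N n hn]; linarith)
  obtain ⟨L, hL⟩ := cauchySeq_tendsto_of_complete hcs
  refine ⟨L, hL, fun m => ?_⟩
  refine tendsto_nhds_unique ((π (p m)).continuous.tendsto L |>.comp hL) (hL.congr' ?_)
  filter_upwards [eventually_ge_atTop m] with n hn
  rw [Function.comp_apply, ← mul_apply_eq_comp, ← map_mul, hf.mul_of_le hn]

/-- Vectors fixed by a flag pair through its expectation. -/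
theorem IsFlag.inner_fix (hf : IsFlag π₀ ξ₀ p) (π : Car →⋆ₐ[ℂ] (K →L[ℂ] K))
    (hn : ∀ x, ‖π x‖ ≤ ‖x‖) {a b : K} (ha : ∀ n, π (p n) a = a) (hb : ∀ n, π (p n) b = b)
    (x : Car) : ⟪a, π x b⟫_ℂ = ⟪ξ₀, π₀ x ξ₀⟫_ℂ * ⟪a, b⟫_ℂ := by
  set c := ⟪ξ₀, π₀ x ξ₀⟫_ℂ
  have hb' : ∀ n, ‖⟪a, π x b⟫_ℂ - c * ⟪a, b⟫_ℂ‖ ≤
      ‖p n * x * p n - c • p n‖ * (‖a‖ * ‖b‖) := fun n => by
    have e : ⟪a, π x b⟫_ℂ - c * ⟪a, b⟫_ℂ = ⟪a, π (p n * x * p n - c • p n) b⟫_ℂ := by
      rw [map_sub, map_smul, map_mul, map_mul, sub_apply, smul_apply, mul_apply_eq_comp,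
        mul_apply_eq_comp, hb n, inner_sub_right, inner_smul_right, inner_proj ((hf.proj n).map π),
        ha n]
    rw [e]
    refine (norm_inner_le_norm _ _).trans ?_
    calc ‖a‖ * ‖π (p n * x * p n - c • p n) b‖
        ≤ ‖a‖ * (‖p n * x * p n - c • p n‖ * ‖b‖) :=
          mul_le_mul_of_nonneg_left ((π _).le_of_opNorm_le (hn _) b) (norm_nonneg _)
      _ = _ := by ring
  rw [← sub_eq_zero, ← norm_le_zero_iff]
  have h0 := (hf.pins x).mul_const (‖a‖ * ‖b‖)
  rw [zero_mul] at h0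
  exact ge_of_tendsto' h0 hb'

end Flag

/-- The orbit map of a vector. -/
noncomputable def orbit (π : Car →⋆ₐ[ℂ] (H →L[ℂ] H)) (a : H) : Car →ₗ[ℂ] H where
  toFun x := π x a
  map_add' x y := by rw [map_add, add_apply]
  map_smul' c x := by rw [map_smul, smul_apply, RingHom.id_apply]

/-- Nonzero vectors are cyclic in irreducible representations. -/
theorem dense_orbit {π : Car →⋆ₐ[ℂ] (H →L[ℂ] H)} (hπ : IsIrred π) {a : H} (ha : a ≠ 0) :
    DenseRange (orbit π a) := by
  set V := (LinearMap.range (orbit π a)).topologicalClosure with hV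
  have hinv : ∀ x, ∀ h ∈ V, π x h ∈ V := fun x h hh => by
    have hle : V ≤ V.comap (π x).toLinearMap := by
      refine Submodule.topologicalClosure_minimal _ ?_
        ((Submodule.isClosed_topologicalClosure _).preimage (π x).continuous)
      rintro _ ⟨y, rfl⟩
      refine Submodule.le_topologicalClosure _ ⟨x * y, ?_⟩
      show π (x * y) a = π x (π y a)
      rw [map_mul, mul_apply_eq_comp]
    exact hle hh
  rcases hπ.2 V (Submodule.isClosed_topologicalClosure _) hinv with h | h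
  · refine absurd ?_ ha
    have : a ∈ V := Submodule.le_topologicalClosure _ ⟨1, by
      show π 1 a = a
      rw [map_one, one_apply_eq_self]⟩
    rwa [h, Submodule.mem_bot] at this
  · intro h'
    have : h' ∈ V := by rw [h]; trivial
    rwa [← SetLike.mem_coe, hV, Submodule.topologicalClosure_coe] at this

/-- Two vectors with the same expectations are carried to one another by an intertwining
isometry. -/
theorem exists_isometry {π : Car →⋆ₐ[ℂ] (H →L[ℂ] H)} (hπ : IsIrred π)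
    (σ : Car →⋆ₐ[ℂ] (K →L[ℂ] K)) {a : H} (ha : a ≠ 0) {b : K}
    (h : ∀ x, ⟪a, π x a⟫_ℂ = ⟪b, σ x b⟫_ℂ) :
    ∃ T : H →ₗᵢ[ℂ] K, T a = b ∧ ∀ x v, T (π x v) = σ x (T v) := by
  have hd := dense_orbit hπ ha
  have hn : ∀ x, ‖orbit σ b x‖ = ‖orbit π a x‖ := fun x =>
    (sq_eq_sq₀ (norm_nonneg _) (norm_nonneg _)).1 (by
      show ‖σ x b‖ ^ 2 = ‖π x a‖ ^ 2
      rw [norm_rep_sq, norm_rep_sq, h])
  set T := (orbit σ b).extendOfNorm (orbit π a)
  have hT : ∀ x, T (π x a) = σ x b := fun x =>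
    LinearMap.extendOfNorm_eq hd ⟨1, fun y => by rw [one_mul, hn]⟩ x
  have hTn : ∀ v, ‖T v‖ = ‖v‖ := fun v =>
    hd.induction_on v (isClosed_eq T.continuous.norm continuous_norm) fun x => by
      show ‖T (π x a)‖ = ‖π x a‖
      rw [hT]; exact hn x
  refine ⟨⟨T.toLinearMap, hTn⟩, ?_, fun x v => ?_⟩
  · show T a = b
    have := hT 1
    rwa [map_one, map_one, one_apply_eq_self, one_apply_eq_self] at this
  · show T (π x v) = σ x (T v)
    refine hd.induction_on v (isClosed_eq (T.continuous.comp (π x).continuous)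
      ((σ x).continuous.comp T.continuous)) fun y => ?_
    show T (π x (π y a)) = σ x (T (π y a))
    rw [← mul_apply_eq_comp, ← map_mul, hT, hT, map_mul, mul_apply_eq_comp]

/-- If the target is irreducible too the isometry is a unitary. -/
theorem uniEquiv_of_eq {π : Car →⋆ₐ[ℂ] (H →L[ℂ] H)} (hπ : IsIrred π)
    {σ : Car →⋆ₐ[ℂ] (K →L[ℂ] K)} (hσ : IsIrred σ) {a : H} (ha : a ≠ 0) {b : K}
    (h : ∀ x, ⟪a, π x a⟫_ℂ = ⟪b, σ x b⟫_ℂ) : UniEquiv π σ := by
  obtain ⟨T, hTa, hT⟩ := exists_isometry hπ σ ha h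
  have hb : b ≠ 0 := fun e => ha (norm_eq_zero.1 (by rw [← T.norm_map, hTa, e, norm_zero]))
  have hc : IsClosed (Set.range T) := T.isometry.isClosedEmbedding.isClosed_range
  have hs : Function.Surjective T := fun k => by
    refine (dense_orbit hσ hb).induction_on k hc fun y => ⟨π y a, ?_⟩
    show T (π y a) = σ y b
    rw [hT, hTa]
  exact ⟨LinearIsometryEquiv.ofSurjective T hs, hT⟩

omit [CompleteSpace H] [CompleteSpace K] in
/-- Intertwining is symmetric on vectors. -/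
theorem equiv_symm_apply {π : H →L[ℂ] H} {σ : K →L[ℂ] K} (U : H ≃ₗᵢ[ℂ] K)
    (h : ∀ v, U (π v) = σ (U v)) (w : K) : U.symm (σ w) = π (U.symm w) :=
  U.injective (by rw [U.apply_symm_apply, h, U.apply_symm_apply])

/-- Vectors fixed by the flag of an irreducible representation are multiples of its vector. -/
theorem IsFlag.fix_unique {π₀ : Car →⋆ₐ[ℂ] (H →L[ℂ] H)} (hπ : IsIrred π₀)
    (hn : ∀ x, ‖π₀ x‖ ≤ ‖x‖) {ξ₀ : H} {p : ℕ → Car} (hf : IsFlag π₀ ξ₀ p) {a : H}
    (ha : ∀ n, π₀ (p n) a = a) : a = ⟪ξ₀, a⟫_ℂ • ξ₀ := by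
  set a' := a - ⟪ξ₀, a⟫_ℂ • ξ₀ with ha'
  have hfix : ∀ n, π₀ (p n) a' = a' := fun n => by rw [ha', map_sub, map_smul, ha, hf.fix]
  have horth : ⟪ξ₀, a'⟫_ℂ = 0 := by
    rw [ha', inner_sub_right, inner_smul_right, inner_self_eq_norm_sq_to_K, hf.unit]
    simp
  have hξ : ξ₀ ≠ 0 := fun e => by simpa [e] using hf.unit
  have h0 : ∀ v, ⟪v, a'⟫_ℂ = 0 := fun v =>
    (dense_orbit hπ hξ).induction_on v
      (isClosed_eq (continuous_id.inner continuous_const) continuous_const) fun x => by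
      show ⟪π₀ x ξ₀, a'⟫_ℂ = 0
      have e := inner_rep π₀ x 1 ξ₀ a'
      rw [map_one, one_apply_eq_self, mul_one] at e
      rw [e, hf.inner_fix π₀ hn hf.fix hfix, horth, mul_zero]
  exact sub_eq_zero.1 (inner_self_eq_zero.1 (h0 a'))

/-- Two irreducible representations with a vector fixed by one flag are equivalent. -/
theorem IsFlag.uniEquiv {π₀ : Car →⋆ₐ[ℂ] (H →L[ℂ] H)} (hπ₀ : IsIrred π₀) {ξ₀ : H} {p : ℕ → Car}
    (hf : IsFlag π₀ ξ₀ p) {π : Car →⋆ₐ[ℂ] (K →L[ℂ] K)} (hπ : IsIrred π)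
    (hn : ∀ x, ‖π x‖ ≤ ‖x‖) {a : K} (ha : a ≠ 0) (hfix : ∀ n, π (p n) a = a) :
    UniEquiv π₀ π := by
  set b : K := ((‖a‖⁻¹ : ℝ) : ℂ) • a
  have hb : ∀ n, π (p n) b = b := fun n => by rw [map_smul, hfix n]
  have hξ : ξ₀ ≠ 0 := fun e => by simpa [e] using hf.unit
  refine uniEquiv_of_eq hπ₀ hπ hξ (b := b) fun x => ?_
  rw [hf.inner_fix π hn hb hb, inner_self_eq_norm_sq_to_K,
    show ‖b‖ = 1 by rw [norm_smul, Complex.norm_real, norm_inv, norm_norm,
      inv_mul_cancel₀ (norm_ne_zero_iff.2 ha)]]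
  simp

/-! ### Linked flags -/

/-- The sum of the first `n` links. -/
noncomputable def linkSum (v : ℕ → Car) (n : ℕ) : Car := ∑ k ∈ Finset.range n, v k

section Links

variable {π₁ : Car →⋆ₐ[ℂ] (H →L[ℂ] H)} {ξ₁ : H} {p q v : ℕ → Car}

theorem IsFlag.step_proj (hp : IsFlag π₁ ξ₁ p) (k : ℕ) : IsStarProjection (p k - p (k + 1)) :=
  (hp.proj (k + 1)).sub_of_mul_eq_right (hp.proj k) (hp.below k)

theorem IsFlag.step_orth (hp : IsFlag π₁ ξ₁ p) {j k : ℕ} (h : j ≠ k) :
    (p j - p (j + 1)) * (p k - p (k + 1)) = 0 := by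
  rcases lt_or_gt_of_ne h with h | h
  · rw [sub_mul, mul_sub, mul_sub, hp.mul_of_le h.le, hp.mul_of_le (by omega : j ≤ k + 1),
      hp.mul_of_le (by omega : j + 1 ≤ k), hp.mul_of_le (by omega : j + 1 ≤ k + 1), sub_self]
  · rw [sub_mul, mul_sub, mul_sub, hp.mul_of_le' h.le, hp.mul_of_le' (by omega : k + 1 ≤ j),
      hp.mul_of_le' (by omega : k ≤ j + 1), hp.mul_of_le' (by omega : k + 1 ≤ j + 1)]
    simp

/-- A partial isometry times its initial projection. -/
theorem mul_init {a e : Car} (he : IsStarProjection e) (h : star a * a = e) : a * e = a := by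
  have h0 : star (a - a * e) * (a - a * e) = 0 := by
    rw [star_sub, star_mul, he.isSelfAdjoint.star_eq]
    calc (star a - e * star a) * (a - a * e)
        = star a * a - star a * a * e - e * (star a * a) + e * (star a * a) * e := by noncomm_ring
      _ = 0 := by
        rw [h, he.isIdempotentElem.eq, he.isIdempotentElem.eq]
        abel
  exact (sub_eq_zero.1 (CStarRing.star_mul_self_eq_zero_iff _ |>.1 h0)).symm

variable (hl : Linked p q v)

include hl in
theorem Linked.swap : Linked q p fun k => star (v k) := fun k => by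
  rw [star_star]; exact ⟨(hl k).2, (hl k).1⟩

include hl in
theorem linkSum_mul (hp : IsFlag π₁ ξ₁ p) {m n : ℕ} (h : n ≤ m) :
    linkSum v m * (1 - p n) = linkSum v n := by
  have hk : ∀ k, v k * (1 - p n) = if k < n then v k else 0 := fun k => by
    rw [← mul_init (hp.step_proj k) (hl k).1, mul_assoc]
    split_ifs with hkn
    · congr 1
      rw [mul_sub, mul_one, sub_mul, hp.mul_of_le hkn.le, hp.mul_of_le (by omega : k + 1 ≤ n),
        sub_self, sub_zero]
    · have hnk : n ≤ k := not_lt.1 hkn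
      rw [mul_sub, mul_one, sub_mul, hp.mul_of_le' hnk, hp.mul_of_le' (by omega : n ≤ k + 1),
        sub_self, mul_zero]
  rw [linkSum, Finset.sum_mul, linkSum, Finset.sum_congr rfl fun k _ => hk k,
    ← Finset.sum_filter]
  congr 1
  ext k
  simp only [Finset.mem_filter, Finset.mem_range]
  exact ⟨fun hk => hk.2, fun hk => ⟨by omega, hk⟩⟩

theorem star_linkSum (n : ℕ) : star (linkSum v n) = linkSum (fun k => star (v k)) n :=
  star_sum _ _

include hl in
theorem linkSum_init (hp : IsFlag π₁ ξ₁ p) {K' : Type v} [NormedAddCommGroup K']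
    [InnerProductSpace ℂ K'] [CompleteSpace K'] {π₂ : Car →⋆ₐ[ℂ] (K' →L[ℂ] K')} {ξ₂ : K'}
    (hq : IsFlag π₂ ξ₂ q) : ∀ n, star (linkSum v n) * linkSum v n = 1 - p n := by
  intro n
  induction n with
  | zero => simp [linkSum, hp.zero]
  | succ n ih =>
    have hfv : (q n - q (n + 1)) * v n = v n := by
      have := congrArg star (mul_init (hq.step_proj n) (hl.swap n).1)
      rwa [star_mul, star_star, (hq.step_proj n).isSelfAdjoint.star_eq] at this
    have hcross : ∀ k < n, star (v k) * v n = 0 := fun k hk => by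
      have hk' : star (v k) * (q k - q (k + 1)) = star (v k) :=
        mul_init (hq.step_proj k) (hl.swap k).1
      rw [← hk', ← hfv, mul_assoc,
        ← mul_assoc (q k - q (k + 1)), hq.step_orth hk.ne, zero_mul, mul_zero]
    have h1 : star (linkSum v n) * v n = 0 := by
      rw [linkSum, star_sum, Finset.sum_mul]
      exact Finset.sum_eq_zero fun k hk => hcross k (Finset.mem_range.1 hk)
    have h2 : star (v n) * linkSum v n = 0 := by
      have := congrArg star h1
      rwa [star_mul, star_star, star_zero] at this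
    rw [linkSum, Finset.sum_range_succ, ← linkSum, star_add, add_mul, mul_add, mul_add, ih, h1, h2,
      (hl n).1]
    abel

end Links

end Vale.Agent.P070
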