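import Vale.Agent.P070.Defs

/-!
P070: interfaces of the modules.
-/

open Filter Topology
open scoped InnerProductSpace

namespace Vale.Agent.P070

universe u v w

/-- MODEL: the levels form increasing star algebras, representations are contractive, and the
algebra is irreducible on its space. -/
structure CarSpec : Prop where
  level_mem : ∀ (m : ℕ) (X : Mat m), matOp X ∈ car
  one : ∀ m : ℕ, matOp (1 : Mat m) = 1
  mul : ∀ (m : ℕ) (X Y : Mat m), matOp (X * Y) = matOp X * matOp Y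
  add : ∀ (m : ℕ) (X Y : Mat m), matOp (X + Y) = matOp X + matOp Y
  smul : ∀ (m : ℕ) (c : ℂ) (X : Mat m), matOp (c • X) = c • matOp X
  adj : ∀ (m : ℕ) (X : Mat m), matOp X.conjTranspose = star (matOp X)
  inj : ∀ m : ℕ, Function.Injective (matOp (m := m))
  mono : ∀ (m n : ℕ), m ≤ n → ∀ X : Mat m, ∃ Y : Mat n, matOp Y = matOp X
  exhaust : ∀ x : Car, ∃ (m : ℕ) (X : Mat m), matOp X = (x : K0 →L[ℂ] K0)
  norm_le : ∀ (H : Type u) [NormedAddCommGroup H] [InnerProductSpace ℂ H] [CompleteSpace H]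
    (π : Car →⋆ₐ[ℂ] (H →L[ℂ] H)) (x : Car), ‖π x‖ ≤ ‖x‖
  base : IsIrred baseRep

/-- EXCISE: in an irreducible representation a unit vector in the range of a projection is nearly
fixed by a smaller projection that nearly compresses given elements to scalars. -/
def ExciseSpec : Prop :=
  ∀ (π : Car →⋆ₐ[ℂ] (K0 →L[ℂ] K0)), IsIrred π → ∀ (p : Car), IsStarProjection p →
    ∀ ξ : K0, ‖ξ‖ = 1 → π p ξ = ξ → ∀ X : Finset Car, ∀ ε : ℝ, 0 < ε →
      ∃ q : Car, IsStarProjection q ∧ p * q = q ∧ ‖π q ξ - ξ‖ < ε ∧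
        ∀ x ∈ X, ‖q * x * q - ⟪ξ, π x ξ⟫_ℂ • q‖ < ε

/-- LINK: every irreducible representation has a flag linked to one of the product vector. -/
def LinkSpec : Prop :=
  ∀ π : Car →⋆ₐ[ℂ] (K0 →L[ℂ] K0), IsIrred π →
    ∃ (ξ : K0) (p q v : ℕ → Car), IsFlag π ξ p ∧ IsFlag baseRep delta0 q ∧ Linked p q v

/-- CLASS: every irreducible representation lives, up to equivalence, on `K0`. -/
def ClassSpec : Prop :=
  ∀ (H : Type u) [NormedAddCommGroup H] [InnerProductSpace ℂ H] [CompleteSpace H]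
    (π : Car →⋆ₐ[ℂ] (H →L[ℂ] H)), IsIrred π →
      ∃ σ : Car →⋆ₐ[ℂ] (K0 →L[ℂ] K0), IsIrred σ ∧ UniEquiv π σ

/-- The answer: a unital C*-algebra with an irreducible representation to which all irreducible
representations are unitarily equivalent, and with no injective representation that has the
compact operators as range. -/
def Target : Prop :=
  ∃ (A : Type) (_ : CStarAlgebra A) (H₀ : Type) (_ : NormedAddCommGroup H₀)
    (_ : InnerProductSpace ℂ H₀) (_ : CompleteSpace H₀) (π₀ : A →⋆ₐ[ℂ] (H₀ →L[ℂ] H₀)),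
    IsIrred π₀ ∧
    (∀ (H : Type u) [NormedAddCommGroup H] [InnerProductSpace ℂ H] [CompleteSpace H]
      (π : A →⋆ₐ[ℂ] (H →L[ℂ] H)), IsIrred π → UniEquiv π₀ π) ∧
    (∀ (H : Type v) [NormedAddCommGroup H] [InnerProductSpace ℂ H] [CompleteSpace H]
      (π : A →⋆ₐ[ℂ] (H →L[ℂ] H)), IsIrred π → UniEquiv π₀ π) ∧
    ∀ (H : Type w) [NormedAddCommGroup H] [InnerProductSpace ℂ H] [CompleteSpace H]
      (φ : A →⋆ₙₐ[ℂ] (H →L[ℂ] H)), Function.Injective φ →
        Set.range φ ≠ {T : H →L[ℂ] H | IsCompactOperator T}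

/-- NOTCOMPACT: an infinite-dimensional unital C*-algebra is not the algebra of compact
operators. -/
def NotCompactSpec : Prop :=
  ∀ (A : Type) [CStarAlgebra A], ¬ FiniteDimensional ℂ A →
    ∀ (H : Type v) [NormedAddCommGroup H] [InnerProductSpace ℂ H] [CompleteSpace H]
      (φ : A →⋆ₙₐ[ℂ] (H →L[ℂ] H)), Function.Injective φ →
        Set.range φ ≠ {T : H →L[ℂ] H | IsCompactOperator T}

/-- MODEL gives EXCISE. -/
def ExciseModule : Prop := CarSpec.{0} → ExciseSpec

/-- MODEL and EXCISE give LINK. -/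
def LinkModule : Prop := CarSpec.{0} → ExciseSpec → LinkSpec

/-- MODEL gives CLASS. -/
def ClassModule : Prop := CarSpec.{0} → CarSpec.{u} → ClassSpec.{u}

/-- ATLAS: the flags give an atlas. -/
def AtlasModule : Prop := CarSpec.{0} → LinkSpec → Nonempty Atlas

/-- UNIQUE: an atlas gives the answer. -/
def UniqueModule : Prop :=
  CarSpec.{0} → CarSpec.{u} → CarSpec.{v} → ClassSpec.{u} → ClassSpec.{v} → NotCompactSpec.{w} →
    Atlas → Target.{u, v, w}

end Vale.Agent.P070
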