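import Mathlib

/-!
P070: the notions of Naimark's question, for stating the hand-in briefly. All of them are the
usual ones; they are split up so that each definition prints in full.
-/

noncomputable section

namespace Vale.Agent.P070

universe u v w

section

variable {R X Y : Type*} [Monoid R] [NonUnitalNonAssocSemiring X] [DistribMulAction R X] [Star X]
  [NonUnitalNonAssocSemiring Y] [DistribMulAction R Y] [Star Y]

/-- The underlying map of a non-unital star homomorphism. -/
def homFun (f : X →⋆ₙₐ[R] Y) : X → Y := f

end

section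

variable (A : Type) [CStarAlgebra A] (H : Type u) [NormedAddCommGroup H] [InnerProductSpace ℂ H]
  [CompleteSpace H]

/-- The representations of `A` on `H`: non-unital star homomorphisms into the bounded operators. -/
def CStarRep : Type u := A →⋆ₙₐ[ℂ] (H →L[ℂ] H)

variable {A H}

/-- The operators of a representation. -/
def CStarRep.op (π : CStarRep A H) : A → H →L[ℂ] H := homFun (R := ℂ) π

/-- A nonzero family of operators with no closed invariant subspace other than `⊥` and `⊤`. -/
def IsIrredFamily (ρ : A → H →L[ℂ] H) : Prop :=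
  ρ ≠ 0 ∧ ∀ V : Submodule ℂ H, IsClosed (V : Set H) → (∀ a, ∀ h ∈ V, ρ a h ∈ V) → V = ⊥ ∨ V = ⊤

variable (H) in
/-- The compact operators on `H`. -/
def compactOps : Set (H →L[ℂ] H) := {T | IsCompactOperator T}

end

section

variable {A : Type} {H₁ : Type u} [NormedAddCommGroup H₁] [InnerProductSpace ℂ H₁]
  {H₂ : Type v} [NormedAddCommGroup H₂] [InnerProductSpace ℂ H₂]

/-- Unitary equivalence of two families of operators. -/
def AreUnitarilyEquiv (ρ : A → H₁ →L[ℂ] H₁) (τ : A → H₂ →L[ℂ] H₂) : Prop :=
  ∃ U : H₁ ≃ₗᵢ[ℂ] H₂, ∀ a h, U (ρ a h) = τ a (U h)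

end

variable (A : Type) [CStarAlgebra A]

/-- There is an irreducible representation. -/
def HasIrredRep : Prop :=
  ∃ (H : Type u) (_ : NormedAddCommGroup H) (_ : InnerProductSpace ℂ H) (_ : CompleteSpace H)
    (π : CStarRep A H), IsIrredFamily π.op

/-- Any two irreducible representations are unitarily equivalent. -/
def HasUniqueIrredRep : Prop :=
  ∀ (H₁ : Type u) [NormedAddCommGroup H₁] [InnerProductSpace ℂ H₁] [CompleteSpace H₁]
    (H₂ : Type v) [NormedAddCommGroup H₂] [InnerProductSpace ℂ H₂] [CompleteSpace H₂]
    (π : CStarRep A H₁) (σ : CStarRep A H₂),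
    IsIrredFamily π.op → IsIrredFamily σ.op → AreUnitarilyEquiv π.op σ.op

/-- The algebra is isomorphic to the compact operators on some Hilbert space. -/
def IsoToCompactOperators : Prop :=
  ∃ (H : Type w) (_ : NormedAddCommGroup H) (_ : InnerProductSpace ℂ H) (_ : CompleteSpace H)
    (φ : CStarRep A H), Function.Injective φ.op ∧ Set.range φ.op = compactOps H

end Vale.Agent.P070

end
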